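import Mathlib

/-! Row 268 / S0408 (helper98).  Definitions.

`W = ℂ[z,s,m,l]` (`X 0 .. X 3`), `q = 1-(1-2z)s²-ml`, `p = q-1`,
`f = x = m(1-zq) - 2qs - sq² + 4zsq² - 2lq³`.  `P4 = ℂ[p,A,B,λ]`, `P5 = ℂ[p,A,B,λ,x]`,
`Polynomial U = ℂ[δ,σ][λ]`, `th : P4 → ℂ[δ,σ][λ]`, `p ↦ δσ, A ↦ δ(δσ-1), B ↦ σ(δσ+1)`,
`ev : λ ↦ δ+σ`. -/

set_option autoImplicit false

namespace Crest.Agent.DW

open MvPolynomial

section
variable {S : Type*} [CommRing S]

def qf (z s m l : S) : S := 1 - (1 - 2 * z) * s ^ 2 - m * l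
def pf (z s m l : S) : S := qf z s m l - 1
def xf (z s m l : S) : S :=
  m * (1 - z * qf z s m l) - 2 * qf z s m l * s - s * (qf z s m l) ^ 2
    + 4 * z * s * (qf z s m l) ^ 2 - 2 * l * (qf z s m l) ^ 3
def X1f (z s m l : S) : S :=
  (-(1 - 2 * z) * s - 2 * qf z s m l * l) * (1 + z * qf z s m l)
    - (m - 2 * qf z s m l * s) * z ^ 2
def X2f (z s m l : S) : S := l * (qf z s m l) ^ 2 + s * (1 - z * qf z s m l)
def y1f (z s m l : S) : S := -l * (1 + z * qf z s m l) + s * z ^ 2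
def Af (z s m l : S) : S := X2f z s m l * (pf z s m l - 1) + xf z s m l * z
def Bf (z s m l : S) : S := X1f z s m l * (pf z s m l + 1) - xf z s m l * z
def laf (z s m l : S) : S := X1f z s m l + X2f z s m l

theorem id_p (z s m l : S) :
    pf z s m l = X1f z s m l * X2f z s m l + xf z s m l * y1f z s m l := by
  unfold pf X1f X2f xf y1f qf; ring

theorem id_x (z s m l : S) :
    xf z s m l * laf z s m l
      = Af z s m l * Bf z s m l - pf z s m l * (pf z s m l ^ 2 - 1) := by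
  unfold Af Bf laf pf X1f X2f xf qf; ring

theorem id_X1 (z s m l : S) :
    2 * X1f z s m l = laf z s m l * (1 - pf z s m l) + Af z s m l + Bf z s m l := by
  unfold Af Bf laf; ring

theorem id_X2 (z s m l : S) :
    2 * X2f z s m l = laf z s m l * (1 + pf z s m l) - Af z s m l - Bf z s m l := by
  unfold Af Bf laf; ring

/-! inverse formulas: `p = X1 X2 + x y1`, `q = p + 1`, `z = y2`. -/
def sI (x X1 X2 y1 y2 : S) : S :=
  X2 * (1 + y2 * (X1 * X2 + x * y1 + 1)) + y1 * (X1 * X2 + x * y1 + 1) ^ 2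
def mI (x X1 X2 y1 y2 : S) : S :=
  (x + 2 * (X1 * X2 + x * y1 + 1) * X2) * (1 + y2 * (X1 * X2 + x * y1 + 1))
    + (2 * (X1 * X2 + x * y1 + 1) * y1 - X1) * (X1 * X2 + x * y1 + 1) ^ 2
def lI (x X1 X2 y1 y2 : S) : S :=
  X2 * y2 ^ 2 - y1 * (1 - y2 * (X1 * X2 + x * y1 + 1))

/-- the relation (`REL`) satisfied by `x, X1, X2, y1, y2`. -/
def rel (x X1 X2 y1 y2 : S) : S :=
  X1 + X2 + y1 * ((X1 * X2 + x * y1) ^ 2 - 1) + x * y2 ^ 2
    - y2 * (X1 * (X1 * X2 + x * y1 + 1) - X2 * (X1 * X2 + x * y1 - 1))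

end

abbrev W := MvPolynomial (Fin 4) ℂ
abbrev P4 := MvPolynomial (Fin 4) ℂ
abbrev P5 := MvPolynomial (Fin 5) ℂ
abbrev U := MvPolynomial (Fin 2) ℂ

/-- the polynomial of S0408 -/
noncomputable def ff : W := xf (X 0) (X 1) (X 2) (X 3)

/-- `p = X 0, A = X 1, B = X 2, λ = X 3`. -/
noncomputable def th : P4 →ₐ[ℂ] Polynomial U :=
  aeval ![Polynomial.C (X 0 * X 1), Polynomial.C (X 0 * (X 0 * X 1 - 1)),
    Polynomial.C (X 1 * (X 0 * X 1 + 1)), Polynomial.X]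

noncomputable def ev : Polynomial U →ₐ[ℂ] U :=
  (Polynomial.aeval (R := U) (A := U) (X 0 + X 1)).restrictScalars ℂ

/-- `p, A, B, λ, x` in `W`. -/
noncomputable def vv : P5 →ₐ[ℂ] W :=
  aeval ![pf (X 0) (X 1) (X 2) (X 3), Af (X 0) (X 1) (X 2) (X 3), Bf (X 0) (X 1) (X 2) (X 3),
    laf (X 0) (X 1) (X 2) (X 3), ff]

noncomputable def pi0 : P5 →ₐ[ℂ] P4 := aeval ![X 0, X 1, X 2, X 3, 0]

end Crest.Agent.DW
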