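import Mathlib.Algebra.MvPolynomial.Basic
import Mathlib.Algebra.MvPolynomial.Eval
import Mathlib.RingTheory.Adjoin.Basic
import Mathlib.Data.Complex.Basic
import Mathlib.Tactic

/-! The polynomial `f` of row 268 and the elements `p, A, B, la` of `ℂ[z,s,m,l]`. -/

set_option autoImplicit false

namespace Crest.Agent.DW

open MvPolynomial

/-- the polynomial ring `ℂ[z,s,m,l]` -/
abbrev W := MvPolynomial (Fin 4) ℂ

noncomputable def wz : W := X 0
noncomputable def ws : W := X 1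
noncomputable def wm : W := X 2
noncomputable def wl : W := X 3
noncomputable def wq : W := 1 - (1 - 2 * wz) * ws ^ 2 - wm * wl
noncomputable def wp : W := wq - 1
noncomputable def wf : W :=
  wm * (1 - wz * wq) - 2 * wq * ws - ws * wq ^ 2 + 4 * wz * ws * wq ^ 2 - 2 * wl * wq ^ 3
noncomputable def wa : W := -(1 - 2 * wz) * ws - 2 * wq * wl
noncomputable def wb : W := wm - 2 * wq * ws
noncomputable def wX1 : W := wa * (1 + wz * wq) - wb * wz ^ 2
noncomputable def wX2 : W := wl * wq ^ 2 + ws * (1 - wz * wq)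
noncomputable def wy1 : W := -wl * (1 + wz * wq) + ws * wz ^ 2
noncomputable def wA : W := wX2 * (wp - 1) + wf * wz
noncomputable def wB : W := wX1 * (wp + 1) - wf * wz
noncomputable def wla : W := wX1 + wX2

theorem wp_eq : wp = wX1 * wX2 + wf * wy1 := by
  simp only [wp, wX1, wX2, wf, wy1, wa, wb, wq]; ring

theorem wf_mul_wla : wf * wla = wA * wB - wp * (wp ^ 2 - 1) := by
  simp only [wp, wX1, wX2, wf, wa, wb, wq, wA, wB, wla]; ring

theorem two_mul_wX1 : 2 * wX1 = wla * (1 - wp) + wA + wB := by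
  simp only [wA, wB, wla]; ring

theorem wf_mul_wz : wf * wz = wA - wX2 * (wp - 1) := by
  simp only [wA]; ring

theorem wf_mul_wy1 : wf * wy1 = wp - wX1 * wX2 := by
  rw [wp_eq]; ring

theorem ws_eq : ws = (1 + wz * wq) * wX2 + wq ^ 2 * wy1 := by
  simp only [wX2, wy1]; ring

theorem wl_eq : wl = wz ^ 2 * wX2 - (1 - wz * wq) * wy1 := by
  simp only [wX2, wy1]; ring

theorem wf_eq : wf = wb * (1 - wz * wq) + wa * wq ^ 2 := by
  simp only [wa, wb, wf]; ring

theorem wa_eq : wa = wz ^ 2 * wf + (1 - wz * wq) * wX1 := by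
  rw [wf_eq]; simp only [wX1]; ring

theorem wb_eq : wb = (1 + wz * wq) * wf - wq ^ 2 * wX1 := by
  rw [wf_eq]; simp only [wX1]; ring

theorem wm_eq : wm = wb + 2 * wq * ws := by
  simp only [wb]; ring

/-- `V2 = ℂ[f,p,A,B,la]` -/
noncomputable def V2 : Subalgebra ℂ W := Algebra.adjoin ℂ {wf, wp, wA, wB, wla}

theorem wf_mem : wf ∈ V2 := Algebra.subset_adjoin (by simp)
theorem wp_mem : wp ∈ V2 := Algebra.subset_adjoin (by simp)
theorem wA_mem : wA ∈ V2 := Algebra.subset_adjoin (by simp)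
theorem wB_mem : wB ∈ V2 := Algebra.subset_adjoin (by simp)
theorem wla_mem : wla ∈ V2 := Algebra.subset_adjoin (by simp)

theorem wq_mem : wq ∈ V2 := by
  have h : wq = wp + 1 := by simp only [wp]; ring
  rw [h]; exact V2.add_mem wp_mem V2.one_mem

theorem wX1_mem : wX1 ∈ V2 := by
  have h : wX1 = (1 / 2 : ℂ) • (wla * (1 - wp) + wA + wB) := by
    rw [← two_mul_wX1, two_mul, smul_add, ← add_smul]; norm_num
  rw [h]
  exact V2.smul_mem (V2.add_mem (V2.add_mem (V2.mul_mem wla_mem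
    (V2.sub_mem V2.one_mem wp_mem)) wA_mem) wB_mem) _

theorem wX2_mem : wX2 ∈ V2 := by
  have h : wX2 = wla - wX1 := by simp only [wla]; ring
  rw [h]; exact V2.sub_mem wla_mem wX1_mem

theorem wfz_mem : wf * wz ∈ V2 := by
  rw [wf_mul_wz]
  exact V2.sub_mem wA_mem (V2.mul_mem wX2_mem (V2.sub_mem wp_mem V2.one_mem))

theorem wfy1_mem : wf * wy1 ∈ V2 := by
  rw [wf_mul_wy1]; exact V2.sub_mem wp_mem (V2.mul_mem wX1_mem wX2_mem)

theorem wfs_mem : wf * ws ∈ V2 := by
  have h : wf * ws = (wf + (wf * wz) * wq) * wX2 + wq ^ 2 * (wf * wy1) := by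
    conv_lhs => rw [ws_eq]
    ring
  rw [h]
  exact V2.add_mem (V2.mul_mem (V2.add_mem wf_mem (V2.mul_mem wfz_mem wq_mem)) wX2_mem)
    (V2.mul_mem (V2.pow_mem wq_mem 2) wfy1_mem)

theorem wfl_mem : wf ^ 2 * wl ∈ V2 := by
  have h : wf ^ 2 * wl = (wf * wz) ^ 2 * wX2 - (wf - (wf * wz) * wq) * (wf * wy1) := by
    conv_lhs => rw [wl_eq]
    ring
  rw [h]
  exact V2.sub_mem (V2.mul_mem (V2.pow_mem wfz_mem 2) wX2_mem)
    (V2.mul_mem (V2.sub_mem wf_mem (V2.mul_mem wfz_mem wq_mem)) wfy1_mem)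

theorem wb_mem : wb ∈ V2 := by
  have h : wb = wf + (wf * wz) * wq - wq ^ 2 * wX1 := by
    conv_lhs => rw [wb_eq]
    ring
  rw [h]
  exact V2.sub_mem (V2.add_mem wf_mem (V2.mul_mem wfz_mem wq_mem))
    (V2.mul_mem (V2.pow_mem wq_mem 2) wX1_mem)

theorem wfm_mem : wf * wm ∈ V2 := by
  have h : wf * wm = wf * wb + (wq + wq) * (wf * ws) := by
    conv_lhs => rw [wm_eq]
    ring
  rw [h]
  exact V2.add_mem (V2.mul_mem wf_mem wb_mem)
    (V2.mul_mem (V2.add_mem wq_mem wq_mem) wfs_mem)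

/-- every element of `W` is in `V2` after multiplication by a power of `f` -/
theorem exists_pow_mul_mem (w : W) : ∃ n : ℕ, wf ^ n * w ∈ V2 := by
  have hX : ∀ i : Fin 4, ∃ n : ℕ, wf ^ n * (X i : W) ∈ V2 := by
    intro i
    fin_cases i
    · exact ⟨1, by simpa [wz] using wfz_mem⟩
    · exact ⟨1, by simpa [ws] using wfs_mem⟩
    · exact ⟨1, by simpa [wm] using wfm_mem⟩
    · exact ⟨2, by simpa [wl] using wfl_mem⟩
  induction w using MvPolynomial.induction_on with
  | C c => exact ⟨0, by simpa using V2.algebraMap_mem c⟩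
  | add u v hu hv =>
    obtain ⟨n, hn⟩ := hu
    obtain ⟨k, hk⟩ := hv
    refine ⟨n + k, ?_⟩
    have : wf ^ (n + k) * (u + v) = wf ^ k * (wf ^ n * u) + wf ^ n * (wf ^ k * v) := by ring
    rw [this]
    exact V2.add_mem (V2.mul_mem (V2.pow_mem wf_mem k) hn) (V2.mul_mem (V2.pow_mem wf_mem n) hk)
  | mul_X u i hu =>
    obtain ⟨n, hn⟩ := hu
    obtain ⟨k, hk⟩ := hX i
    refine ⟨n + k, ?_⟩
    have : wf ^ (n + k) * (u * X i) = (wf ^ n * u) * (wf ^ k * X i) := by ring
    rw [this]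
    exact V2.mul_mem hn hk

/-- `p` is not constant modulo `f` -/
theorem not_wf_dvd_wp_sub_C (c : ℂ) : ¬ wf ∣ wp - C c := by
  rintro ⟨g, hg⟩
  have e1 := congrArg (MvPolynomial.eval (![0, 0, 0, 0] : Fin 4 → ℂ)) hg
  have e2 := congrArg (MvPolynomial.eval (![-5, 0, 1, 2] : Fin 4 → ℂ)) hg
  simp only [wf, wp, wq, wz, ws, wm, wl, map_sub, map_mul, map_add, map_pow, map_one, map_ofNat,
    eval_X, eval_C, Matrix.cons_val_zero, Matrix.cons_val_one, Matrix.cons_val] at e1 e2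
  have h1 : c = 0 := by
    have : (0 : ℂ) - c = 0 := by linear_combination e1
    linear_combination -this
  have h2 : c = -2 := by
    linear_combination -e2
  rw [h1] at h2
  norm_num at h2

end Crest.Agent.DW
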