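import Mathlib

set_option autoImplicit false

/-! Row 268 (S0408), explicit polynomial identities of helper98's example (helper44). -/

namespace Crest.Agent.DW

section
variable {R : Type*} [CommRing R]

def gq (z s m l : R) : R := 1-(1-2*z)*s^2-m*l
def gf (z s m l : R) : R :=
  m*(1-z*gq z s m l) - 2*gq z s m l*s - s*(gq z s m l)^2 + 4*z*s*(gq z s m l)^2
    - 2*l*(gq z s m l)^3
def ga (z s m l : R) : R := -(1-2*z)*s-2*gq z s m l*l
def gb (z s m l : R) : R := m-2*gq z s m l*s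
def gX1 (z s m l : R) : R := ga z s m l*(1+z*gq z s m l)-gb z s m l*z^2
def gX2 (z s m l : R) : R := l*(gq z s m l)^2+s*(1-z*gq z s m l)
def gy1 (z s m l : R) : R := -l*(1+z*gq z s m l)+s*z^2

theorem gq_eq (z s m l : R) :
    gq z s m l - 1 = gX1 z s m l * gX2 z s m l + gf z s m l * gy1 z s m l := by
  simp only [gX1, gX2, gy1, gf, ga, gb, gq]; ring

theorem gG_eq (z s m l : R) :
    gX1 z s m l + gX2 z s m l = - gy1 z s m l * ((gq z s m l - 1)^2-1)
      + z * (gX1 z s m l * (gq z s m l) - gX2 z s m l * (gq z s m l - 2))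
      - gf z s m l * z^2 := by
  simp only [gX1, gX2, gy1, gf, ga, gb, gq]; ring

/-- recover `s` -/
theorem gs_rec (z s m l : R) :
    gX2 z s m l * (1 + z * gq z s m l) + gy1 z s m l * (gq z s m l)^2 = s := by
  simp only [gX2, gy1]; ring

theorem gl_rec (z s m l : R) :
    gX2 z s m l * z^2 - gy1 z s m l * (1 - z * gq z s m l) = l := by
  simp only [gX2, gy1]; ring

theorem gb_rec (z s m l : R) :
    gf z s m l * (1 + z * gq z s m l) - gX1 z s m l * (gq z s m l)^2 = gb z s m l := by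
  simp only [gX1, gf, gb, ga]; ring

theorem gm_rec (z s m l : R) :
    gf z s m l * (1 + z * gq z s m l) - gX1 z s m l * (gq z s m l)^2
      + 2 * gq z s m l * s = m := by
  rw [gb_rec]; simp only [gb]; ring

/-- the inverse direction -/
theorem inv_q (x X1 X2 y1 y2 p s l b m : R)
    (hp : p = X1 * X2 + x * y1)
    (hG : X1 + X2 = - y1 * (p^2-1) + y2 * (X1 * (p+1) - X2 * (p-1)) - x * y2^2)
    (hs : s = X2 * (1 + y2 * (p+1)) + y1 * (p+1)^2)
    (hl : l = X2 * y2^2 - y1 * (1 - y2 * (p+1)))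
    (hb : b = x * (1 + y2 * (p+1)) - X1 * (p+1)^2)
    (hm : m = b + 2 * (p+1) * s) :
    gq y2 s m l = p + 1 := by
  have ha : -(1-2*y2)*s - 2*(p+1)*l = X1 * (1 - y2*(p+1)) + x * y2^2 := by
    subst hs hl; linear_combination (-1 : R) * hG
  have h2 : s * (X1 * (1 - y2*(p+1)) + x * y2^2) - b * l = X1 * X2 + x * y1 := by
    subst hs hl hb; ring
  unfold gq
  rw [hm]
  linear_combination s * ha + h2 - hp

theorem inv_all (x X1 X2 y1 y2 p s l b m : R)
    (hp : p = X1 * X2 + x * y1)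
    (hG : X1 + X2 = - y1 * (p^2-1) + y2 * (X1 * (p+1) - X2 * (p-1)) - x * y2^2)
    (hs : s = X2 * (1 + y2 * (p+1)) + y1 * (p+1)^2)
    (hl : l = X2 * y2^2 - y1 * (1 - y2 * (p+1)))
    (hb : b = x * (1 + y2 * (p+1)) - X1 * (p+1)^2)
    (hm : m = b + 2 * (p+1) * s) :
    gq y2 s m l = p + 1 ∧ gf y2 s m l = x ∧ gX1 y2 s m l = X1 ∧ gX2 y2 s m l = X2
      ∧ gy1 y2 s m l = y1 := by
  have hq := inv_q x X1 X2 y1 y2 p s l b m hp hG hs hl hb hm
  have ha : -(1-2*y2)*s - 2*(p+1)*l = X1 * (1 - y2*(p+1)) + x * y2^2 := by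
    subst hs hl; linear_combination (-1 : R) * hG
  have ha' : ga y2 s m l = X1 * (1 - y2*(p+1)) + x * y2^2 := by
    unfold ga; rw [hq]; exact ha
  have hb' : gb y2 s m l = b := by
    unfold gb; rw [hq, hm]; ring
  refine ⟨hq, ?_, ?_, ?_, ?_⟩
  · unfold gf; rw [hq]
    rw [hm]
    linear_combination (p+1)^2 * ha + (1 - y2*(p+1)) * hb
  · unfold gX1; rw [ha', hb', hq, hb]; ring
  · unfold gX2; rw [hq, hs, hl]; ring
  · unfold gy1; rw [hq, hs, hl]; ring

section map
variable {S : Type*} [CommRing S] (φ : R →+* S) (z s m l : R)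

theorem map_gq : φ (gq z s m l) = gq (φ z) (φ s) (φ m) (φ l) := by
  simp only [gq, map_sub, map_mul, map_pow, map_one, map_ofNat]
theorem map_gf : φ (gf z s m l) = gf (φ z) (φ s) (φ m) (φ l) := by
  simp only [gf, map_sub, map_add, map_mul, map_pow, map_one, map_ofNat, map_gq]
theorem map_gX1 : φ (gX1 z s m l) = gX1 (φ z) (φ s) (φ m) (φ l) := by
  simp only [gX1, ga, gb, map_sub, map_add, map_neg, map_mul, map_pow, map_one, map_ofNat, map_gq]
theorem map_gX2 : φ (gX2 z s m l) = gX2 (φ z) (φ s) (φ m) (φ l) := by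
  simp only [gX2, map_sub, map_add, map_mul, map_pow, map_one, map_gq]
theorem map_gy1 : φ (gy1 z s m l) = gy1 (φ z) (φ s) (φ m) (φ l) := by
  simp only [gy1, map_sub, map_add, map_neg, map_mul, map_pow, map_one, map_gq]
end map

end

end Crest.Agent.DW
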