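import Crest.Agent.DW.FibC

set_option autoImplicit false

/-! Row 268 (S0408), fibre over `0` (helper44). -/

namespace Crest.Agent.DW

section
variable {R : Type*} [CommRing R]

/-- `β` with `α (p^2-1) + β v = 1`, `p = X1 X2`; `k = 1/4`. -/
def zbe (k X1 X2 : R) : R := k * ((X1*X2+1)*X2 + (X1*X2-1)*X1)
def zal (k X1 X2 : R) : R := -(1 + k*(X1^2 - X2^2))
def zv (X1 X2 : R) : R := X1*(X1*X2+1) - X2*(X1*X2-1)
def zz (k X1 X2 e : R) : R := zbe k X1 X2 * (X1+X2) + ((X1*X2)^2-1)*e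
def zy (k X1 X2 e : R) : R := -(zal k X1 X2) * (X1+X2) + zv X1 X2 * e
def zs (k X1 X2 e : R) : R :=
  X2 * (1 + zz k X1 X2 e * (X1*X2+1)) + zy k X1 X2 e * (X1*X2+1)^2
def zl (k X1 X2 e : R) : R :=
  X2 * (zz k X1 X2 e)^2 - zy k X1 X2 e * (1 - zz k X1 X2 e * (X1*X2+1))
def zm (k X1 X2 e : R) : R := - X1 * (X1*X2+1)^2 + 2 * (X1*X2+1) * zs k X1 X2 e

theorem zbez (k X1 X2 : R) (hk : 4 * k = 1) :
    zal k X1 X2 * ((X1*X2)^2-1) + zbe k X1 X2 * zv X1 X2 = 1 := by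
  unfold zal zbe zv
  linear_combination ((X1*X2)^2) * hk

theorem zfwd (k X1 X2 e : R) (hk : 4 * k = 1) :
    gq (zz k X1 X2 e) (zs k X1 X2 e) (zm k X1 X2 e) (zl k X1 X2 e) = X1*X2 + 1 ∧
    gf (zz k X1 X2 e) (zs k X1 X2 e) (zm k X1 X2 e) (zl k X1 X2 e) = 0 ∧
    gX1 (zz k X1 X2 e) (zs k X1 X2 e) (zm k X1 X2 e) (zl k X1 X2 e) = X1 ∧
    gX2 (zz k X1 X2 e) (zs k X1 X2 e) (zm k X1 X2 e) (zl k X1 X2 e) = X2 ∧
    gy1 (zz k X1 X2 e) (zs k X1 X2 e) (zm k X1 X2 e) (zl k X1 X2 e) = zy k X1 X2 e := by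
  have hb := zbez k X1 X2 hk
  refine inv_all 0 X1 X2 (zy k X1 X2 e) (zz k X1 X2 e) (X1*X2)
    (zs k X1 X2 e) (zl k X1 X2 e) (- X1 * (X1*X2+1)^2) (zm k X1 X2 e) ?_ ?_ rfl rfl ?_ rfl
  · ring
  · have h1 : zz k X1 X2 e = zbe k X1 X2 * (X1+X2) + ((X1*X2)^2-1)*e := rfl
    have h2 : zy k X1 X2 e = -(zal k X1 X2) * (X1+X2) + zv X1 X2 * e := rfl
    have h3 : zv X1 X2 = X1*(X1*X2+1) - X2*(X1*X2-1) := rfl
    rw [h1, h2]
    rw [h3] at hb ⊢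
    linear_combination (-(X1+X2)) * hb
  · ring

theorem zbwd (k z s m l : R) (hk : 4 * k = 1) (hf : gf z s m l = 0)
    (e : R) (he : e = zbe k (gX1 z s m l) (gX2 z s m l) * gy1 z s m l
      + zal k (gX1 z s m l) (gX2 z s m l) * z) :
    zz k (gX1 z s m l) (gX2 z s m l) e = z ∧ zs k (gX1 z s m l) (gX2 z s m l) e = s ∧
    zm k (gX1 z s m l) (gX2 z s m l) e = m ∧ zl k (gX1 z s m l) (gX2 z s m l) e = l := by
  have hpe := gq_eq z s m l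
  have hGe := gG_eq z s m l
  have hs := gs_rec z s m l
  have hl := gl_rec z s m l
  have hm := gm_rec z s m l
  rw [hf, zero_mul, add_zero] at hpe
  have hq : gq z s m l = gX1 z s m l * gX2 z s m l + 1 := by rw [← hpe]; ring
  rw [hf, hq] at hGe hm
  rw [hq] at hs hl
  generalize gX1 z s m l = X1 at *
  generalize gX2 z s m l = X2 at *
  generalize gy1 z s m l = y1 at *
  have hb := zbez k X1 X2 hk
  have h3 : zv X1 X2 = X1*(X1*X2+1) - X2*(X1*X2-1) := rfl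
  have hS : X1 + X2 = - y1 * ((X1*X2)^2-1) + z * zv X1 X2 := by
    rw [h3, hGe]; ring
  have hz : zz k X1 X2 e = z := by
    unfold zz
    rw [hS, he]
    linear_combination z * hb
  have hy : zy k X1 X2 e = y1 := by
    unfold zy
    rw [hS, he]
    linear_combination y1 * hb
  have hs' : zs k X1 X2 e = s := by
    unfold zs; rw [hz, hy]; exact hs
  have hl' : zl k X1 X2 e = l := by
    unfold zl; rw [hz, hy]; exact hl
  have hm' : zm k X1 X2 e = m := by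
    unfold zm; rw [hs', ← hm]; ring
  exact ⟨hz, hs', hm', hl'⟩

section map
variable {S : Type*} [CommRing S] (φ : R →+* S) (k X1 X2 e : R)

theorem map_zbe : φ (zbe k X1 X2) = zbe (φ k) (φ X1) (φ X2) := by
  simp only [zbe, map_add, map_sub, map_mul, map_one]
theorem map_zal : φ (zal k X1 X2) = zal (φ k) (φ X1) (φ X2) := by
  simp only [zal, map_add, map_sub, map_neg, map_mul, map_pow, map_one]
theorem map_zv : φ (zv X1 X2) = zv (φ X1) (φ X2) := by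
  simp only [zv, map_add, map_sub, map_mul, map_one]
theorem map_zz : φ (zz k X1 X2 e) = zz (φ k) (φ X1) (φ X2) (φ e) := by
  simp only [zz, map_zbe, map_add, map_sub, map_mul, map_pow, map_one]
theorem map_zy : φ (zy k X1 X2 e) = zy (φ k) (φ X1) (φ X2) (φ e) := by
  simp only [zy, map_zal, map_zv, map_add, map_neg, map_mul]
theorem map_zs : φ (zs k X1 X2 e) = zs (φ k) (φ X1) (φ X2) (φ e) := by
  simp only [zs, map_zz, map_zy, map_add, map_mul, map_pow, map_one]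
theorem map_zl : φ (zl k X1 X2 e) = zl (φ k) (φ X1) (φ X2) (φ e) := by
  simp only [zl, map_zz, map_zy, map_add, map_sub, map_mul, map_pow, map_one]
theorem map_zm : φ (zm k X1 X2 e) = zm (φ k) (φ X1) (φ X2) (φ e) := by
  simp only [zm, map_zs, map_add, map_neg, map_mul, map_pow, map_one, map_ofNat]
end map

end

open MvPolynomial

theorem fib0 :
    Nonempty ((MvPolynomial (Fin 4) ℂ ⧸ Ideal.span {F - C 0}) ≃ₐ[ℂ] MvPolynomial (Fin 3) ℂ) := by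
  have hh : ∀ n : ℕ, (4 : MvPolynomial (Fin n) ℂ) * C (1/4) = 1 := by
    intro n
    have h2 : (4 : MvPolynomial (Fin n) ℂ) = C 4 := (map_ofNat C 4).symm
    rw [h2, ← C_mul]
    norm_num
  obtain ⟨e1, e2, e3, e4, e5⟩ := zfwd (C (1/4) : MvPolynomial (Fin 3) ℂ)
    (X 0) (X 1) (X 2) (hh 3)
  have hC : ∀ (n k : ℕ) (v : Fin n → MvPolynomial (Fin k) ℂ) (a : ℂ),
      aeval v (C a) = (C a : MvPolynomial (Fin k) ℂ) := by
    intro n k v a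
    rw [aeval_C, MvPolynomial.algebraMap_eq]
  refine mk_fib 0 ![zz (C (1/4)) (X 0) (X 1) (X 2), zs (C (1/4)) (X 0) (X 1) (X 2),
      zm (C (1/4)) (X 0) (X 1) (X 2), zl (C (1/4)) (X 0) (X 1) (X 2)]
    ![gX1 (X 0) (X 1) (X 2) (X 3), gX2 (X 0) (X 1) (X 2) (X 3),
      zbe (C (1/4)) (gX1 (X 0) (X 1) (X 2) (X 3)) (gX2 (X 0) (X 1) (X 2) (X 3))
        * gy1 (X 0) (X 1) (X 2) (X 3)
      + zal (C (1/4)) (gX1 (X 0) (X 1) (X 2) (X 3)) (gX2 (X 0) (X 1) (X 2) (X 3)) * X 0]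
    (by rw [C_0]; exact e2) ?_ ?_
  · set v : Fin 4 → MvPolynomial (Fin 3) ℂ :=
      ![zz (C (1/4)) (X 0) (X 1) (X 2), zs (C (1/4)) (X 0) (X 1) (X 2),
      zm (C (1/4)) (X 0) (X 1) (X 2), zl (C (1/4)) (X 0) (X 1) (X 2)] with hv
    have v0 : v 0 = zz (C (1/4)) (X 0) (X 1) (X 2) := rfl
    have v1 : v 1 = zs (C (1/4)) (X 0) (X 1) (X 2) := rfl
    have v2 : v 2 = zm (C (1/4)) (X 0) (X 1) (X 2) := rfl
    have v3 : v 3 = zl (C (1/4)) (X 0) (X 1) (X 2) := rfl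
    have hX1 : aeval v (gX1 (X 0) (X 1) (X 2) (X 3) : MvPolynomial (Fin 4) ℂ)
        = (X 0 : MvPolynomial (Fin 3) ℂ) := by
      have := map_gX1 ((aeval v : MvPolynomial (Fin 4) ℂ →ₐ[ℂ] MvPolynomial (Fin 3) ℂ) :
        MvPolynomial (Fin 4) ℂ →+* MvPolynomial (Fin 3) ℂ) (X 0) (X 1) (X 2) (X 3)
      simp only [RingHom.coe_coe, aeval_X] at this
      rw [this, v0, v1, v2, v3, e3]
    have hX2 : aeval v (gX2 (X 0) (X 1) (X 2) (X 3) : MvPolynomial (Fin 4) ℂ)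
        = (X 1 : MvPolynomial (Fin 3) ℂ) := by
      have := map_gX2 ((aeval v : MvPolynomial (Fin 4) ℂ →ₐ[ℂ] MvPolynomial (Fin 3) ℂ) :
        MvPolynomial (Fin 4) ℂ →+* MvPolynomial (Fin 3) ℂ) (X 0) (X 1) (X 2) (X 3)
      simp only [RingHom.coe_coe, aeval_X] at this
      rw [this, v0, v1, v2, v3, e4]
    have hy1 : aeval v (gy1 (X 0) (X 1) (X 2) (X 3) : MvPolynomial (Fin 4) ℂ)
        = (zy (C (1/4)) (X 0) (X 1) (X 2) : MvPolynomial (Fin 3) ℂ) := by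
      have := map_gy1 ((aeval v : MvPolynomial (Fin 4) ℂ →ₐ[ℂ] MvPolynomial (Fin 3) ℂ) :
        MvPolynomial (Fin 4) ℂ →+* MvPolynomial (Fin 3) ℂ) (X 0) (X 1) (X 2) (X 3)
      simp only [RingHom.coe_coe, aeval_X] at this
      rw [this, v0, v1, v2, v3, e5]
    intro i
    fin_cases i
    · exact hX1
    · exact hX2
    · show aeval v (zbe (C (1/4)) (gX1 (X 0) (X 1) (X 2) (X 3)) (gX2 (X 0) (X 1) (X 2) (X 3))
        * gy1 (X 0) (X 1) (X 2) (X 3)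
      + zal (C (1/4)) (gX1 (X 0) (X 1) (X 2) (X 3)) (gX2 (X 0) (X 1) (X 2) (X 3)) * X 0
        : MvPolynomial (Fin 4) ℂ) = X 2
      have b1 := map_zbe ((aeval v : MvPolynomial (Fin 4) ℂ →ₐ[ℂ] MvPolynomial (Fin 3) ℂ) :
        MvPolynomial (Fin 4) ℂ →+* MvPolynomial (Fin 3) ℂ) (C (1/4))
          (gX1 (X 0) (X 1) (X 2) (X 3)) (gX2 (X 0) (X 1) (X 2) (X 3))
      have b2 := map_zal ((aeval v : MvPolynomial (Fin 4) ℂ →ₐ[ℂ] MvPolynomial (Fin 3) ℂ) :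
        MvPolynomial (Fin 4) ℂ →+* MvPolynomial (Fin 3) ℂ) (C (1/4))
          (gX1 (X 0) (X 1) (X 2) (X 3)) (gX2 (X 0) (X 1) (X 2) (X 3))
      simp only [RingHom.coe_coe, hC] at b1 b2
      rw [map_add, map_mul, map_mul, b1, b2, hX1, hX2, hy1, aeval_X, v0]
      have hb := zbez (C (1/4) : MvPolynomial (Fin 3) ℂ) (X 0) (X 1) (hh 3)
      unfold zy zz
      linear_combination (X 2 : MvPolynomial (Fin 3) ℂ) * hb
  · set u : Fin 3 → MvPolynomial (Fin 4) ℂ := ![gX1 (X 0) (X 1) (X 2) (X 3),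
      gX2 (X 0) (X 1) (X 2) (X 3),
      zbe (C (1/4)) (gX1 (X 0) (X 1) (X 2) (X 3)) (gX2 (X 0) (X 1) (X 2) (X 3))
        * gy1 (X 0) (X 1) (X 2) (X 3)
      + zal (C (1/4)) (gX1 (X 0) (X 1) (X 2) (X 3)) (gX2 (X 0) (X 1) (X 2) (X 3)) * X 0] with hu
    set μ := Ideal.Quotient.mk (Ideal.span {F - C 0} : Ideal (MvPolynomial (Fin 4) ℂ)) with hμ
    have u0 : u 0 = gX1 (X 0) (X 1) (X 2) (X 3) := rfl
    have u1 : u 1 = gX2 (X 0) (X 1) (X 2) (X 3) := rfl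
    have u2 : u 2 = zbe (C (1/4)) (gX1 (X 0) (X 1) (X 2) (X 3)) (gX2 (X 0) (X 1) (X 2) (X 3))
        * gy1 (X 0) (X 1) (X 2) (X 3)
      + zal (C (1/4)) (gX1 (X 0) (X 1) (X 2) (X 3)) (gX2 (X 0) (X 1) (X 2) (X 3)) * X 0 := rfl
    have m0 : μ (u 0) = gX1 (μ (X 0)) (μ (X 1)) (μ (X 2)) (μ (X 3)) := by
      rw [u0, map_gX1]
    have m1 : μ (u 1) = gX2 (μ (X 0)) (μ (X 1)) (μ (X 2)) (μ (X 3)) := by
      rw [u1, map_gX2]
    have m2 : μ (u 2) = zbe (μ (C (1/4))) (gX1 (μ (X 0)) (μ (X 1)) (μ (X 2)) (μ (X 3)))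
        (gX2 (μ (X 0)) (μ (X 1)) (μ (X 2)) (μ (X 3))) * gy1 (μ (X 0)) (μ (X 1)) (μ (X 2)) (μ (X 3))
        + zal (μ (C (1/4))) (gX1 (μ (X 0)) (μ (X 1)) (μ (X 2)) (μ (X 3)))
          (gX2 (μ (X 0)) (μ (X 1)) (μ (X 2)) (μ (X 3))) * μ (X 0) := by
      rw [u2, map_add, map_mul, map_mul, map_zbe, map_zal, map_gX1, map_gX2, map_gy1]
    have hf0 : gf (μ (X 0)) (μ (X 1)) (μ (X 2)) (μ (X 3)) = 0 := by
      rw [mk_gf 0, C_0, map_zero]
    obtain ⟨g1, g2, g3, g4⟩ := zbwd (μ (C (1/4))) (μ (X 0)) (μ (X 1))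
      (μ (X 2)) (μ (X 3))
      (by rw [show (4 : MvPolynomial (Fin 4) ℂ ⧸ Ideal.span {F - C 0}) = μ 4 from (map_ofNat μ 4).symm,
        ← map_mul, hh, map_one]) hf0 (μ (u 2)) m2
    rw [← m0, ← m1] at g1 g2 g3 g4
    intro j
    fin_cases j
    · show μ (aeval u (zz (C (1/4)) (X 0) (X 1) (X 2))) = μ (X 0)
      have := map_zz (μ.comp ((aeval u : MvPolynomial (Fin 3) ℂ →ₐ[ℂ] MvPolynomial (Fin 4) ℂ) :
        MvPolynomial (Fin 3) ℂ →+* MvPolynomial (Fin 4) ℂ)) (C (1/4)) (X 0) (X 1) (X 2)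
      simp only [RingHom.comp_apply, RingHom.coe_coe, aeval_X, hC] at this
      rw [this]; exact g1
    · show μ (aeval u (zs (C (1/4)) (X 0) (X 1) (X 2))) = μ (X 1)
      have := map_zs (μ.comp ((aeval u : MvPolynomial (Fin 3) ℂ →ₐ[ℂ] MvPolynomial (Fin 4) ℂ) :
        MvPolynomial (Fin 3) ℂ →+* MvPolynomial (Fin 4) ℂ)) (C (1/4)) (X 0) (X 1) (X 2)
      simp only [RingHom.comp_apply, RingHom.coe_coe, aeval_X, hC] at this
      rw [this]; exact g2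
    · show μ (aeval u (zm (C (1/4)) (X 0) (X 1) (X 2))) = μ (X 2)
      have := map_zm (μ.comp ((aeval u : MvPolynomial (Fin 3) ℂ →ₐ[ℂ] MvPolynomial (Fin 4) ℂ) :
        MvPolynomial (Fin 3) ℂ →+* MvPolynomial (Fin 4) ℂ)) (C (1/4)) (X 0) (X 1) (X 2)
      simp only [RingHom.comp_apply, RingHom.coe_coe, aeval_X, hC] at this
      rw [this]; exact g3
    · show μ (aeval u (zl (C (1/4)) (X 0) (X 1) (X 2))) = μ (X 3)
      have := map_zl (μ.comp ((aeval u : MvPolynomial (Fin 3) ℂ →ₐ[ℂ] MvPolynomial (Fin 4) ℂ) :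
        MvPolynomial (Fin 3) ℂ →+* MvPolynomial (Fin 4) ℂ)) (C (1/4)) (X 0) (X 1) (X 2)
      simp only [RingHom.comp_apply, RingHom.coe_coe, aeval_X, hC] at this
      rw [this]; exact g4

theorem fib44 (c : ℂ) :
    Nonempty ((MvPolynomial (Fin 4) ℂ ⧸ Ideal.span {F - C c}) ≃ₐ[ℂ] MvPolynomial (Fin 3) ℂ) := by
  by_cases hc : c = 0
  · subst hc; exact fib0
  · exact fibC c hc

end Crest.Agent.DW
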