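import Crest.Agent.DW.Defs44

set_option autoImplicit false

/-! Row 268 (S0408), fibres over `c ≠ 0` (helper44). -/

namespace Crest.Agent.DW

section
variable {R : Type*} [CommRing R]

def nla (k p A B : R) : R := k * (A * B - p * (p^2-1))
def nX1 (k h p A B : R) : R := h * (nla k p A B * (1 - p) + A + B)
def nX2 (k h p A B : R) : R := nla k p A B - nX1 k h p A B
def nz (k h p A B : R) : R := k * (A - nX2 k h p A B * (p - 1))
def ny1 (k h p A B : R) : R := k * (p - nX1 k h p A B * nX2 k h p A B)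
def ns (k h p A B : R) : R :=
  nX2 k h p A B * (1 + nz k h p A B * (p+1)) + ny1 k h p A B * (p+1)^2
def nl (k h p A B : R) : R :=
  nX2 k h p A B * (nz k h p A B)^2 - ny1 k h p A B * (1 - nz k h p A B * (p+1))
def nb (x k h p A B : R) : R :=
  x * (1 + nz k h p A B * (p+1)) - nX1 k h p A B * (p+1)^2
def nm (x k h p A B : R) : R := nb x k h p A B + 2 * (p+1) * ns k h p A B

theorem nfwd (x k h p A B : R) (hx : x * k = 1) (hh : 2 * h = 1) :
    gq (nz k h p A B) (ns k h p A B) (nm x k h p A B) (nl k h p A B) = p + 1 ∧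
    gf (nz k h p A B) (ns k h p A B) (nm x k h p A B) (nl k h p A B) = x ∧
    gX1 (nz k h p A B) (ns k h p A B) (nm x k h p A B) (nl k h p A B) = nX1 k h p A B ∧
    gX2 (nz k h p A B) (ns k h p A B) (nm x k h p A B) (nl k h p A B) = nX2 k h p A B ∧
    gy1 (nz k h p A B) (ns k h p A B) (nm x k h p A B) (nl k h p A B) = ny1 k h p A B := by
  have hy1 : x * ny1 k h p A B = p - nX1 k h p A B * nX2 k h p A B := by
    unfold ny1; rw [← mul_assoc, hx, one_mul]
  have hz : x * nz k h p A B = A - nX2 k h p A B * (p - 1) := by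
    unfold nz; rw [← mul_assoc, hx, one_mul]
  have hla : x * nla k p A B = A * B - p * (p^2-1) := by
    unfold nla; rw [← mul_assoc, hx, one_mul]
  have h1 : nX1 k h p A B + nX2 k h p A B = nla k p A B := by
    unfold nX2; ring
  have h2 : 2 * nX1 k h p A B = nla k p A B * (1 - p) + A + B := by
    unfold nX1; rw [← mul_assoc, hh, one_mul]
  -- B in terms of the others
  have h3 : B = nX1 k h p A B * (p+1) - x * nz k h p A B := by
    rw [hz]; linear_combination (1 - p) * h1 - h2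
  refine inv_all x (nX1 k h p A B) (nX2 k h p A B) (ny1 k h p A B) (nz k h p A B) p
    (ns k h p A B) (nl k h p A B) (nb x k h p A B) (nm x k h p A B) ?_ ?_ rfl rfl rfl rfl
  · linear_combination (-1 : R) * hy1
  · -- multiply by x
    have hcanc : ∀ u v : R, x * u = x * v → u = v := by
      intro u v huv
      have : k * (x * u) = k * (x * v) := by rw [huv]
      rw [← mul_assoc, ← mul_assoc, mul_comm k x, hx, one_mul, one_mul] at this
      exact this
    apply hcanc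
    generalize nX1 k h p A B = X1 at *
    generalize nX2 k h p A B = X2 at *
    generalize ny1 k h p A B = y1 at *
    generalize nz k h p A B = z at *
    generalize nla k p A B = la at *
    rw [h1, hla]
    have hA : A = X2 * (p - 1) + x * z := by linear_combination (-1 : R) * hz
    rw [h3, hA]
    linear_combination (p^2-1) * hy1

theorem nbwd (x k h z s m l : R) (hx : x * k = 1) (hh : 2 * h = 1) (hf : gf z s m l = x)
    (p A B : R) (hp : p = gq z s m l - 1) (hA : A = gX2 z s m l * (p - 1) + x * z)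
    (hB : B = gX1 z s m l * (p + 1) - x * z) :
    nz k h p A B = z ∧ ns k h p A B = s ∧ nm x k h p A B = m ∧ nl k h p A B = l := by
  have hpe := gq_eq z s m l
  have hGe := gG_eq z s m l
  have hs := gs_rec z s m l
  have hl := gl_rec z s m l
  have hm := gm_rec z s m l
  have hq : gq z s m l = p + 1 := by rw [hp]; ring
  rw [hq, hf] at hpe hGe hm
  rw [hq] at hs hl
  have hk1 : k * x = 1 := by rw [mul_comm]; exact hx
  have hla : nla k p A B = gX1 z s m l + gX2 z s m l := by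
    have : A * B - p * (p^2-1) = x * (gX1 z s m l + gX2 z s m l) := by
      rw [hGe, hA, hB]
      linear_combination (1-p^2) * hpe
    unfold nla
    rw [this, ← mul_assoc, hk1, one_mul]
  have hX1 : nX1 k h p A B = gX1 z s m l := by
    unfold nX1
    rw [hla, hA, hB]
    linear_combination (gX1 z s m l) * hh
  have hX2 : nX2 k h p A B = gX2 z s m l := by
    unfold nX2
    rw [hla, hX1]; ring
  have hz : nz k h p A B = z := by
    unfold nz
    rw [hX2, hA]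
    linear_combination z * hk1
  have hy : ny1 k h p A B = gy1 z s m l := by
    unfold ny1
    rw [hX1, hX2]
    linear_combination (gy1 z s m l) * hk1 + k * hpe
  have hs' : ns k h p A B = s := by
    unfold ns
    rw [hX2, hz, hy]; exact hs
  have hl' : nl k h p A B = l := by
    unfold nl
    rw [hX2, hz, hy]; exact hl
  have hm' : nm x k h p A B = m := by
    unfold nm nb
    rw [hz, hX1, hs']
    exact hm
  exact ⟨hz, hs', hm', hl'⟩

section map
variable {S : Type*} [CommRing S] (φ : R →+* S) (x k h p A B : R)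

theorem map_nla : φ (nla k p A B) = nla (φ k) (φ p) (φ A) (φ B) := by
  simp only [nla, map_sub, map_mul, map_pow, map_one]
theorem map_nX1 : φ (nX1 k h p A B) = nX1 (φ k) (φ h) (φ p) (φ A) (φ B) := by
  simp only [nX1, map_nla, map_add, map_sub, map_mul, map_one]
theorem map_nX2 : φ (nX2 k h p A B) = nX2 (φ k) (φ h) (φ p) (φ A) (φ B) := by
  simp only [nX2, map_nla, map_nX1, map_sub]
theorem map_nz : φ (nz k h p A B) = nz (φ k) (φ h) (φ p) (φ A) (φ B) := by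
  simp only [nz, map_nX2, map_sub, map_mul, map_one]
theorem map_ny1 : φ (ny1 k h p A B) = ny1 (φ k) (φ h) (φ p) (φ A) (φ B) := by
  simp only [ny1, map_nX1, map_nX2, map_sub, map_mul]
theorem map_ns : φ (ns k h p A B) = ns (φ k) (φ h) (φ p) (φ A) (φ B) := by
  simp only [ns, map_nX2, map_nz, map_ny1, map_add, map_mul, map_pow, map_one]
theorem map_nl : φ (nl k h p A B) = nl (φ k) (φ h) (φ p) (φ A) (φ B) := by
  simp only [nl, map_nX2, map_nz, map_ny1, map_add, map_sub, map_mul, map_pow, map_one]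
theorem map_nb : φ (nb x k h p A B) = nb (φ x) (φ k) (φ h) (φ p) (φ A) (φ B) := by
  simp only [nb, map_nX1, map_nz, map_add, map_sub, map_mul, map_pow, map_one]
theorem map_nm : φ (nm x k h p A B) = nm (φ x) (φ k) (φ h) (φ p) (φ A) (φ B) := by
  simp only [nm, map_nb, map_ns, map_add, map_mul, map_one, map_ofNat]
end map

end

open MvPolynomial

noncomputable def F : MvPolynomial (Fin 4) ℂ := gf (X 0) (X 1) (X 2) (X 3)

theorem mk_fib (c : ℂ) (v : Fin 4 → MvPolynomial (Fin 3) ℂ) (u : Fin 3 → MvPolynomial (Fin 4) ℂ)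
    (h1 : gf (v 0) (v 1) (v 2) (v 3) = C c)
    (h2 : ∀ i : Fin 3, aeval v (u i) = (X i : MvPolynomial (Fin 3) ℂ))
    (h3 : ∀ j : Fin 4, Ideal.Quotient.mk (Ideal.span {F - C c}) (aeval u (v j))
      = Ideal.Quotient.mk (Ideal.span {F - C c}) (X j)) :
    Nonempty ((MvPolynomial (Fin 4) ℂ ⧸ Ideal.span {F - C c}) ≃ₐ[ℂ] MvPolynomial (Fin 3) ℂ) := by
  have hF : aeval v F = C c := by
    have := map_gf ((aeval v : MvPolynomial (Fin 4) ℂ →ₐ[ℂ] MvPolynomial (Fin 3) ℂ) :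
      MvPolynomial (Fin 4) ℂ →+* MvPolynomial (Fin 3) ℂ) (X 0) (X 1) (X 2) (X 3)
    rw [RingHom.coe_coe] at this
    unfold F
    rw [this, aeval_X, aeval_X, aeval_X, aeval_X, h1]
  have hker : ∀ a ∈ (Ideal.span {F - C c} : Ideal (MvPolynomial (Fin 4) ℂ)), aeval v a = 0 := by
    intro a ha
    rw [Ideal.mem_span_singleton'] at ha
    obtain ⟨b, rfl⟩ := ha
    have hCc : aeval v (C c : MvPolynomial (Fin 4) ℂ) = (C c : MvPolynomial (Fin 3) ℂ) := by
      rw [aeval_C, MvPolynomial.algebraMap_eq]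
    rw [map_mul, map_sub, hF, hCc, sub_self, mul_zero]
  refine ⟨AlgEquiv.ofAlgHom (Ideal.Quotient.liftₐ (Ideal.span {F - C c}) (aeval v) hker)
    ((Ideal.Quotient.mkₐ ℂ (Ideal.span {F - C c})).comp (aeval u)) ?_ ?_⟩
  · apply MvPolynomial.algHom_ext
    intro i
    rw [AlgHom.comp_apply, AlgHom.comp_apply, aeval_X, AlgHom.id_apply]
    exact h2 i
  · apply Ideal.Quotient.algHom_ext
    apply MvPolynomial.algHom_ext
    intro j
    have : (Ideal.Quotient.liftₐ (Ideal.span {F - C c}) (aeval v) hker)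
        ((Ideal.Quotient.mkₐ ℂ (Ideal.span {F - C c})) (X j)) = v j := by
      show aeval v (X j) = v j
      rw [aeval_X]
    rw [AlgHom.comp_apply, AlgHom.comp_apply, this]
    exact h3 j

/-- the value in the quotient -/
theorem mk_gf (c : ℂ) : gf (Ideal.Quotient.mk (Ideal.span {F - C c}) (X 0))
    (Ideal.Quotient.mk (Ideal.span {F - C c}) (X 1))
    (Ideal.Quotient.mk (Ideal.span {F - C c}) (X 2))
    (Ideal.Quotient.mk (Ideal.span {F - C c}) (X 3))
      = Ideal.Quotient.mk (Ideal.span {F - C c}) (C c) := by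
  rw [← map_gf, Ideal.Quotient.eq]
  exact Ideal.subset_span rfl

theorem fibC (c : ℂ) (hc : c ≠ 0) :
    Nonempty ((MvPolynomial (Fin 4) ℂ ⧸ Ideal.span {F - C c}) ≃ₐ[ℂ] MvPolynomial (Fin 3) ℂ) := by
  have hxk : ∀ n : ℕ, (C c : MvPolynomial (Fin n) ℂ) * C c⁻¹ = 1 := by
    intro n
    rw [← C_mul, mul_inv_cancel₀ hc, C_1]
  have hh : ∀ n : ℕ, (2 : MvPolynomial (Fin n) ℂ) * C (1/2) = 1 := by
    intro n
    have h2 : (2 : MvPolynomial (Fin n) ℂ) = C 2 := (map_ofNat C 2).symm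
    rw [h2, ← C_mul]
    norm_num
  obtain ⟨e1, e2, e3, e4, e5⟩ := nfwd (C c : MvPolynomial (Fin 3) ℂ) (C c⁻¹) (C (1/2))
    (X 0) (X 1) (X 2) (hxk 3) (hh 3)
  have hC : ∀ (n k : ℕ) (v : Fin n → MvPolynomial (Fin k) ℂ) (a : ℂ),
      aeval v (C a) = (C a : MvPolynomial (Fin k) ℂ) := by
    intro n k v a
    rw [aeval_C, MvPolynomial.algebraMap_eq]
  refine mk_fib c ![nz (C c⁻¹) (C (1/2)) (X 0) (X 1) (X 2), ns (C c⁻¹) (C (1/2)) (X 0) (X 1) (X 2),
      nm (C c) (C c⁻¹) (C (1/2)) (X 0) (X 1) (X 2), nl (C c⁻¹) (C (1/2)) (X 0) (X 1) (X 2)]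
    ![gq (X 0) (X 1) (X 2) (X 3) - 1,
      gX2 (X 0) (X 1) (X 2) (X 3) * ((gq (X 0) (X 1) (X 2) (X 3) - 1) - 1) + C c * X 0,
      gX1 (X 0) (X 1) (X 2) (X 3) * ((gq (X 0) (X 1) (X 2) (X 3) - 1) + 1) - C c * X 0] e2 ?_ ?_
  · -- forward composition
    set v : Fin 4 → MvPolynomial (Fin 3) ℂ :=
      ![nz (C c⁻¹) (C (1/2)) (X 0) (X 1) (X 2), ns (C c⁻¹) (C (1/2)) (X 0) (X 1) (X 2),
      nm (C c) (C c⁻¹) (C (1/2)) (X 0) (X 1) (X 2), nl (C c⁻¹) (C (1/2)) (X 0) (X 1) (X 2)] with hv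
    have v0 : v 0 = nz (C c⁻¹) (C (1/2)) (X 0) (X 1) (X 2) := rfl
    have v1 : v 1 = ns (C c⁻¹) (C (1/2)) (X 0) (X 1) (X 2) := rfl
    have v2 : v 2 = nm (C c) (C c⁻¹) (C (1/2)) (X 0) (X 1) (X 2) := rfl
    have v3 : v 3 = nl (C c⁻¹) (C (1/2)) (X 0) (X 1) (X 2) := rfl
    have hq : aeval v (gq (X 0) (X 1) (X 2) (X 3) : MvPolynomial (Fin 4) ℂ)
        = (X 0 + 1 : MvPolynomial (Fin 3) ℂ) := by
      have := map_gq ((aeval v : MvPolynomial (Fin 4) ℂ →ₐ[ℂ] MvPolynomial (Fin 3) ℂ) :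
        MvPolynomial (Fin 4) ℂ →+* MvPolynomial (Fin 3) ℂ) (X 0) (X 1) (X 2) (X 3)
      simp only [RingHom.coe_coe, aeval_X] at this
      rw [this, v0, v1, v2, v3, e1]
    have hX1 : aeval v (gX1 (X 0) (X 1) (X 2) (X 3) : MvPolynomial (Fin 4) ℂ)
        = (nX1 (C c⁻¹) (C (1/2)) (X 0) (X 1) (X 2) : MvPolynomial (Fin 3) ℂ) := by
      have := map_gX1 ((aeval v : MvPolynomial (Fin 4) ℂ →ₐ[ℂ] MvPolynomial (Fin 3) ℂ) :
        MvPolynomial (Fin 4) ℂ →+* MvPolynomial (Fin 3) ℂ) (X 0) (X 1) (X 2) (X 3)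
      simp only [RingHom.coe_coe, aeval_X] at this
      rw [this, v0, v1, v2, v3, e3]
    have hX2 : aeval v (gX2 (X 0) (X 1) (X 2) (X 3) : MvPolynomial (Fin 4) ℂ)
        = (nX2 (C c⁻¹) (C (1/2)) (X 0) (X 1) (X 2) : MvPolynomial (Fin 3) ℂ) := by
      have := map_gX2 ((aeval v : MvPolynomial (Fin 4) ℂ →ₐ[ℂ] MvPolynomial (Fin 3) ℂ) :
        MvPolynomial (Fin 4) ℂ →+* MvPolynomial (Fin 3) ℂ) (X 0) (X 1) (X 2) (X 3)
      simp only [RingHom.coe_coe, aeval_X] at this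
      rw [this, v0, v1, v2, v3, e4]
    have hcz : (C c : MvPolynomial (Fin 3) ℂ) * nz (C c⁻¹) (C (1/2)) (X 0) (X 1) (X 2)
        = X 1 - nX2 (C c⁻¹) (C (1/2)) (X 0) (X 1) (X 2) * (X 0 - 1) := by
      unfold nz; rw [← mul_assoc, hxk, one_mul]
    have h2 : 2 * nX1 (C c⁻¹ : MvPolynomial (Fin 3) ℂ) (C (1/2)) (X 0) (X 1) (X 2)
        = nla (C c⁻¹) (X 0) (X 1) (X 2) * (1 - X 0) + X 1 + X 2 := by
      unfold nX1; rw [← mul_assoc, hh, one_mul]
    have h1 : nX2 (C c⁻¹ : MvPolynomial (Fin 3) ℂ) (C (1/2)) (X 0) (X 1) (X 2)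
        = nla (C c⁻¹) (X 0) (X 1) (X 2) - nX1 (C c⁻¹) (C (1/2)) (X 0) (X 1) (X 2) := rfl
    intro i
    fin_cases i
    · show aeval v (gq (X 0) (X 1) (X 2) (X 3) - 1 : MvPolynomial (Fin 4) ℂ) = X 0
      rw [map_sub, map_one, hq]; ring
    · show aeval v (gX2 (X 0) (X 1) (X 2) (X 3) * ((gq (X 0) (X 1) (X 2) (X 3) - 1) - 1) + C c * X 0
        : MvPolynomial (Fin 4) ℂ) = X 1
      rw [map_add, map_mul, map_mul, map_sub, map_sub, map_one, hX2, hq, hC, aeval_X, v0, hcz]; ring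
    · show aeval v (gX1 (X 0) (X 1) (X 2) (X 3) * ((gq (X 0) (X 1) (X 2) (X 3) - 1) + 1) - C c * X 0
        : MvPolynomial (Fin 4) ℂ) = X 2
      rw [map_sub, map_mul, map_mul, map_add, map_sub, map_one, hX1, hq, hC, aeval_X, v0, hcz, h1]
      linear_combination h2
  · -- backward composition
    set u : Fin 3 → MvPolynomial (Fin 4) ℂ := ![gq (X 0) (X 1) (X 2) (X 3) - 1,
      gX2 (X 0) (X 1) (X 2) (X 3) * ((gq (X 0) (X 1) (X 2) (X 3) - 1) - 1) + C c * X 0,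
      gX1 (X 0) (X 1) (X 2) (X 3) * ((gq (X 0) (X 1) (X 2) (X 3) - 1) + 1) - C c * X 0] with hu
    set μ := Ideal.Quotient.mk (Ideal.span {F - C c} : Ideal (MvPolynomial (Fin 4) ℂ)) with hμ
    have u0 : u 0 = gq (X 0) (X 1) (X 2) (X 3) - 1 := rfl
    have u1 : u 1 = gX2 (X 0) (X 1) (X 2) (X 3) * ((gq (X 0) (X 1) (X 2) (X 3) - 1) - 1)
      + C c * X 0 := rfl
    have u2 : u 2 = gX1 (X 0) (X 1) (X 2) (X 3) * ((gq (X 0) (X 1) (X 2) (X 3) - 1) + 1)
      - C c * X 0 := rfl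
    have m0 : μ (u 0) = gq (μ (X 0)) (μ (X 1)) (μ (X 2)) (μ (X 3)) - 1 := by
      rw [u0, map_sub, map_one, map_gq]
    have m1 : μ (u 1) = gX2 (μ (X 0)) (μ (X 1)) (μ (X 2)) (μ (X 3)) * (μ (u 0) - 1)
        + μ (C c) * μ (X 0) := by
      rw [m0, u1, map_add, map_mul, map_mul, map_sub, map_sub, map_one, map_gq, map_gX2]
    have m2 : μ (u 2) = gX1 (μ (X 0)) (μ (X 1)) (μ (X 2)) (μ (X 3)) * (μ (u 0) + 1)
        - μ (C c) * μ (X 0) := by
      rw [m0, u2, map_sub, map_mul, map_mul, map_add, map_sub, map_one, map_gq, map_gX1]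
    obtain ⟨g1, g2, g3, g4⟩ := nbwd (μ (C c)) (μ (C c⁻¹)) (μ (C (1/2))) (μ (X 0)) (μ (X 1))
      (μ (X 2)) (μ (X 3)) (by rw [← map_mul, hxk, map_one])
      (by rw [show (2 : MvPolynomial (Fin 4) ℂ ⧸ Ideal.span {F - C c}) = μ 2 from (map_ofNat μ 2).symm,
        ← map_mul, hh, map_one]) (mk_gf c) (μ (u 0)) (μ (u 1)) (μ (u 2)) m0 m1 m2
    intro j
    fin_cases j
    · show μ (aeval u (nz (C c⁻¹) (C (1/2)) (X 0) (X 1) (X 2))) = μ (X 0)
      have := map_nz (μ.comp ((aeval u : MvPolynomial (Fin 3) ℂ →ₐ[ℂ] MvPolynomial (Fin 4) ℂ) :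
        MvPolynomial (Fin 3) ℂ →+* MvPolynomial (Fin 4) ℂ)) (C c⁻¹) (C (1/2)) (X 0) (X 1) (X 2)
      simp only [RingHom.comp_apply, RingHom.coe_coe, aeval_X, hC] at this
      rw [this]; exact g1
    · show μ (aeval u (ns (C c⁻¹) (C (1/2)) (X 0) (X 1) (X 2))) = μ (X 1)
      have := map_ns (μ.comp ((aeval u : MvPolynomial (Fin 3) ℂ →ₐ[ℂ] MvPolynomial (Fin 4) ℂ) :
        MvPolynomial (Fin 3) ℂ →+* MvPolynomial (Fin 4) ℂ)) (C c⁻¹) (C (1/2)) (X 0) (X 1) (X 2)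
      simp only [RingHom.comp_apply, RingHom.coe_coe, aeval_X, hC] at this
      rw [this]; exact g2
    · show μ (aeval u (nm (C c) (C c⁻¹) (C (1/2)) (X 0) (X 1) (X 2))) = μ (X 2)
      have := map_nm (μ.comp ((aeval u : MvPolynomial (Fin 3) ℂ →ₐ[ℂ] MvPolynomial (Fin 4) ℂ) :
        MvPolynomial (Fin 3) ℂ →+* MvPolynomial (Fin 4) ℂ)) (C c) (C c⁻¹) (C (1/2))
        (X 0) (X 1) (X 2)
      simp only [RingHom.comp_apply, RingHom.coe_coe, aeval_X, hC] at this
      rw [this]; exact g3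
    · show μ (aeval u (nl (C c⁻¹) (C (1/2)) (X 0) (X 1) (X 2))) = μ (X 3)
      have := map_nl (μ.comp ((aeval u : MvPolynomial (Fin 3) ℂ →ₐ[ℂ] MvPolynomial (Fin 4) ℂ) :
        MvPolynomial (Fin 3) ℂ →+* MvPolynomial (Fin 4) ℂ)) (C c⁻¹) (C (1/2)) (X 0) (X 1) (X 2)
      simp only [RingHom.comp_apply, RingHom.coe_coe, aeval_X, hC] at this
      rw [this]; exact g4

end Crest.Agent.DW
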