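import Crest.Agent.DW.Gen
set_option autoImplicit false
namespace Crest.Agent.DW
open MvPolynomial

section gen2
variable {S : Type*} [CommRing S]

def gla (ic p A B : S) : S := ic * (A * B - p * (p ^ 2 - 1))
def gX1 (ic h p A B : S) : S := h * (gla ic p A B * (1 - p) + A + B)
def gX2 (ic h p A B : S) : S := h * (gla ic p A B * (1 + p) - A - B)
def gy1 (ic h p A B : S) : S := ic * (p - gX1 ic h p A B * gX2 ic h p A B)
def gy2 (ic h p A B : S) : S := ic * (A - gX2 ic h p A B * (p - 1))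

variable (x ic h p A B : S) (hx : x * ic = 1) (hh : 2 * h = 1)
include hx

theorem g_h1 : x * gy1 ic h p A B = p - gX1 ic h p A B * gX2 ic h p A B := by
  unfold gy1; linear_combination (p - gX1 ic h p A B * gX2 ic h p A B) * hx

theorem g_h2 : x * gy2 ic h p A B = A - gX2 ic h p A B * (p - 1) := by
  unfold gy2; linear_combination (A - gX2 ic h p A B * (p - 1)) * hx

theorem g_h4 : x * gla ic p A B = A * B - p * (p ^ 2 - 1) := by
  unfold gla; linear_combination (A * B - p * (p ^ 2 - 1)) * hx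

theorem g_hp : gX1 ic h p A B * gX2 ic h p A B + x * gy1 ic h p A B = p := by
  rw [g_h1 x ic h p A B hx]; ring

omit hx in
include hh in
theorem g_h3 : gX1 ic h p A B + gX2 ic h p A B = gla ic p A B := by
  unfold gX1 gX2; linear_combination (gla ic p A B) * hh

omit hx in
include hh in
theorem g_h5 : gX1 ic h p A B * (p + 1) + gX2 ic h p A B * (p - 1) = A + B := by
  unfold gX1 gX2; linear_combination (A + B) * hh

include hh in
theorem g_rel : rel x (gX1 ic h p A B) (gX2 ic h p A B) (gy1 ic h p A B) (gy2 ic h p A B) = 0 := by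
  have hp := g_hp x ic h p A B hx
  have h1 := g_h1 x ic h p A B hx
  have h2 := g_h2 x ic h p A B hx
  have h3 := g_h3 ic h p A B hh
  have h4 := g_h4 x ic p A B hx
  have h5 := g_h5 ic h p A B hh
  have key : x * rel x (gX1 ic h p A B) (gX2 ic h p A B) (gy1 ic h p A B) (gy2 ic h p A B) = 0 := by
    unfold rel
    rw [hp]
    generalize gX1 ic h p A B = X1 at *
    generalize gX2 ic h p A B = X2 at *
    generalize gy1 ic h p A B = y1 at *
    generalize gy2 ic h p A B = y2 at *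
    generalize gla ic p A B = la at *
    linear_combination x * h3 + h4 + (p ^ 2 - 1) * h1
      + (x * y2 + (A - X2 * (p - 1)) - (X1 * (p + 1) - X2 * (p - 1))) * h2 - A * h5
  calc rel x (gX1 ic h p A B) (gX2 ic h p A B) (gy1 ic h p A B) (gy2 ic h p A B)
      = ic * (x * rel x (gX1 ic h p A B) (gX2 ic h p A B) (gy1 ic h p A B) (gy2 ic h p A B)) := by
        linear_combination (-(rel x (gX1 ic h p A B) (gX2 ic h p A B) (gy1 ic h p A B) (gy2 ic h p A B))) * hx
    _ = 0 := by rw [key, mul_zero]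

end gen2

section gen3
variable {S : Type*} [CommRing S]
variable (z s m l ic h : S) (hx : xf z s m l * ic = 1) (hh : 2 * h = 1)
include hx

theorem i_la : gla ic (pf z s m l) (Af z s m l) (Bf z s m l) = laf z s m l := by
  unfold gla; rw [← id_x]; linear_combination (laf z s m l) * hx

include hh in
theorem i_X1 : gX1 ic h (pf z s m l) (Af z s m l) (Bf z s m l) = X1f z s m l := by
  unfold gX1; rw [i_la z s m l ic hx, ← id_X1]; linear_combination (X1f z s m l) * hh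

include hh in
theorem i_X2 : gX2 ic h (pf z s m l) (Af z s m l) (Bf z s m l) = X2f z s m l := by
  unfold gX2; rw [i_la z s m l ic hx, ← id_X2]; linear_combination (X2f z s m l) * hh

include hh in
theorem i_y1 : gy1 ic h (pf z s m l) (Af z s m l) (Bf z s m l) = y1f z s m l := by
  unfold gy1; rw [i_X1 z s m l ic h hx hh, i_X2 z s m l ic h hx hh]
  have := id_p z s m l
  linear_combination ic * this + (y1f z s m l) * hx

include hh in
theorem i_y2 : gy2 ic h (pf z s m l) (Af z s m l) (Bf z s m l) = z := by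
  unfold gy2; rw [i_X2 z s m l ic h hx hh]; unfold Af
  linear_combination z * hx

end gen3

section maps
variable {S T F : Type*} [CommRing S] [CommRing T] [FunLike F S T] [RingHomClass F S T] (f : F)

theorem map_two' : f (2 : S) = 2 := map_ofNat f 2
theorem map_four' : f (4 : S) = 4 := map_ofNat f 4
theorem map_qf (z s m l : S) : f (qf z s m l) = qf (f z) (f s) (f m) (f l) := by
  simp [qf, map_two' f]
theorem map_pf (z s m l : S) : f (pf z s m l) = pf (f z) (f s) (f m) (f l) := by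
  simp [pf, map_qf]
theorem map_xf (z s m l : S) : f (xf z s m l) = xf (f z) (f s) (f m) (f l) := by
  simp [xf, map_qf, map_two' f, map_four' f]
theorem map_X1f (z s m l : S) : f (X1f z s m l) = X1f (f z) (f s) (f m) (f l) := by
  simp [X1f, map_qf, map_two' f]
theorem map_X2f (z s m l : S) : f (X2f z s m l) = X2f (f z) (f s) (f m) (f l) := by
  simp [X2f, map_qf]
theorem map_y1f (z s m l : S) : f (y1f z s m l) = y1f (f z) (f s) (f m) (f l) := by
  simp [y1f, map_qf]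
theorem map_Af (z s m l : S) : f (Af z s m l) = Af (f z) (f s) (f m) (f l) := by
  simp [Af, map_X2f, map_pf, map_xf]
theorem map_Bf (z s m l : S) : f (Bf z s m l) = Bf (f z) (f s) (f m) (f l) := by
  simp [Bf, map_X1f, map_pf, map_xf]
theorem map_laf (z s m l : S) : f (laf z s m l) = laf (f z) (f s) (f m) (f l) := by
  simp [laf, map_X1f, map_X2f]
theorem map_sI (x X1 X2 y1 y2 : S) :
    f (sI x X1 X2 y1 y2) = sI (f x) (f X1) (f X2) (f y1) (f y2) := by
  simp [sI]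
theorem map_mI (x X1 X2 y1 y2 : S) :
    f (mI x X1 X2 y1 y2) = mI (f x) (f X1) (f X2) (f y1) (f y2) := by
  simp [mI, map_two' f]
theorem map_lI (x X1 X2 y1 y2 : S) :
    f (lI x X1 X2 y1 y2) = lI (f x) (f X1) (f X2) (f y1) (f y2) := by
  simp [lI]
theorem map_gla (ic p A B : S) : f (gla ic p A B) = gla (f ic) (f p) (f A) (f B) := by
  simp [gla]
theorem map_gX1 (ic h p A B : S) : f (gX1 ic h p A B) = gX1 (f ic) (f h) (f p) (f A) (f B) := by
  simp [gX1, map_gla]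
theorem map_gX2 (ic h p A B : S) : f (gX2 ic h p A B) = gX2 (f ic) (f h) (f p) (f A) (f B) := by
  simp [gX2, map_gla]
theorem map_gy1 (ic h p A B : S) : f (gy1 ic h p A B) = gy1 (f ic) (f h) (f p) (f A) (f B) := by
  simp [gy1, map_gX1, map_gX2]
theorem map_gy2 (ic h p A B : S) : f (gy2 ic h p A B) = gy2 (f ic) (f h) (f p) (f A) (f B) := by
  simp [gy2, map_gX2]

end maps

theorem fib_ne (c : ℂ) (hc : c ≠ 0) :
    Nonempty ((W ⧸ Ideal.span {ff - C c}) ≃ₐ[ℂ] MvPolynomial (Fin 3) ℂ) := by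
  classical
  set ic : MvPolynomial (Fin 3) ℂ := C c⁻¹ with hic
  set h : MvPolynomial (Fin 3) ℂ := C (1/2 : ℂ) with hhd
  set p : MvPolynomial (Fin 3) ℂ := X 0 with hp
  set A : MvPolynomial (Fin 3) ℂ := X 1 with hA
  set B : MvPolynomial (Fin 3) ℂ := X 2 with hB
  have hx : (C c : MvPolynomial (Fin 3) ℂ) * ic = 1 := by
    rw [hic, ← C_mul, mul_inv_cancel₀ hc, C_1]
  have hh : (2 : MvPolynomial (Fin 3) ℂ) * h = 1 := by
    have : (2 : MvPolynomial (Fin 3) ℂ) = C (2 : ℂ) := (map_ofNat C 2).symm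
    rw [hhd, this, ← C_mul]; norm_num
  set X1 := gX1 ic h p A B with hX1
  set X2 := gX2 ic h p A B with hX2
  set y1 := gy1 ic h p A B with hy1
  set y2 := gy2 ic h p A B with hy2
  have hrel : rel (C c) X1 X2 y1 y2 = 0 := g_rel (C c) ic h p A B hx hh
  let φ : W →ₐ[ℂ] MvPolynomial (Fin 3) ℂ :=
    aeval ![y2, sI (C c) X1 X2 y1 y2, mI (C c) X1 X2 y1 y2, lI (C c) X1 X2 y1 y2]
  have φ0 : φ (X 0) = y2 := by simp [φ]
  have φ1 : φ (X 1) = sI (C c) X1 X2 y1 y2 := by simp [φ]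
  have φ2 : φ (X 2) = mI (C c) X1 X2 y1 y2 := by simp [φ]
  have φ3 : φ (X 3) = lI (C c) X1 X2 y1 y2 := by simp [φ]
  have φx : φ ff = C c := by
    unfold ff; rw [map_xf, φ0, φ1, φ2, φ3]; exact fn_x _ _ _ _ _ hrel
  have φp : φ (pf (X 0) (X 1) (X 2) (X 3)) = p := by
    rw [map_pf, φ0, φ1, φ2, φ3, fn_p _ _ _ _ _ hrel]
    exact g_hp (C c) ic h p A B hx
  have φX2 : φ (X2f (X 0) (X 1) (X 2) (X 3)) = X2 := by
    rw [map_X2f, φ0, φ1, φ2, φ3, fn_X2 _ _ _ _ _ hrel]
  have φX1 : φ (X1f (X 0) (X 1) (X 2) (X 3)) = X1 := by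
    rw [map_X1f, φ0, φ1, φ2, φ3, fn_X1 _ _ _ _ _ hrel]
  have φx' : φ (xf (X 0) (X 1) (X 2) (X 3)) = C c := φx
  have φA : φ (Af (X 0) (X 1) (X 2) (X 3)) = A := by
    unfold Af
    rw [map_add, map_mul, map_sub, map_mul, map_one, φX2, φp, φx', φ0]
    have := g_h2 (C c) ic h p A B hx
    linear_combination this
  have φB : φ (Bf (X 0) (X 1) (X 2) (X 3)) = B := by
    unfold Bf
    rw [map_sub, map_mul, map_add, map_mul, map_one, φX1, φp, φx', φ0]
    have := g_h2 (C c) ic h p A B hx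
    have h5 := g_h5 ic h p A B hh
    linear_combination h5 - this
  let I : Ideal W := Ideal.span {ff - C c}
  have hI : ∀ a ∈ I, φ a = 0 := by
    intro a ha
    obtain ⟨b, rfl⟩ := Ideal.mem_span_singleton'.1 ha
    rw [map_mul, map_sub, φx]
    have : φ (C c) = C c := by
      have := φ.commutes c
      simp only [MvPolynomial.algebraMap_eq] at this; exact this
    rw [this, sub_self, mul_zero]
  let Φ : (W ⧸ I) →ₐ[ℂ] MvPolynomial (Fin 3) ℂ := Ideal.Quotient.liftₐ I φ hI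
  have hΦ : ∀ w : W, Φ (Ideal.Quotient.mkₐ ℂ I w) = φ w := fun w => rfl
  let z' : W ⧸ I := Ideal.Quotient.mkₐ ℂ I (X 0)
  let s' : W ⧸ I := Ideal.Quotient.mkₐ ℂ I (X 1)
  let m' : W ⧸ I := Ideal.Quotient.mkₐ ℂ I (X 2)
  let l' : W ⧸ I := Ideal.Quotient.mkₐ ℂ I (X 3)
  let Ψ : MvPolynomial (Fin 3) ℂ →ₐ[ℂ] (W ⧸ I) :=
    aeval ![pf z' s' m' l', Af z' s' m' l', Bf z' s' m' l']
  have Ψ0 : Ψ p = pf z' s' m' l' := by simp [Ψ, hp]
  have Ψ1 : Ψ A = Af z' s' m' l' := by simp [Ψ, hA]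
  have Ψ2 : Ψ B = Bf z' s' m' l' := by simp [Ψ, hB]
  have hxq : xf z' s' m' l' = Ψ (C c) := by
    have e1 : Ψ (C c) = algebraMap ℂ (W ⧸ I) c := by
      have := Ψ.commutes c
      simpa [MvPolynomial.algebraMap_eq] using this
    have e2 : xf z' s' m' l' = Ideal.Quotient.mkₐ ℂ I ff := by
      unfold ff; rw [map_xf]
    have e3 : algebraMap ℂ (W ⧸ I) c = Ideal.Quotient.mkₐ ℂ I (C c) := by
      have := (Ideal.Quotient.mkₐ ℂ I).commutes c
      rw [← this, MvPolynomial.algebraMap_eq]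
    rw [e1, e2, e3]
    rw [Ideal.Quotient.mkₐ_eq_mk]
    exact (Ideal.Quotient.eq).2 (Ideal.mem_span_singleton_self _)
  have hxic : xf z' s' m' l' * Ψ ic = 1 := by
    rw [hxq, ← map_mul, hx, map_one]
  have hhh : (2 : W ⧸ I) * Ψ h = 1 := by
    have := congrArg Ψ hh
    rw [map_mul, map_one, map_ofNat] at this
    exact this
  have ΨX1 : Ψ X1 = X1f z' s' m' l' := by
    rw [hX1, map_gX1, Ψ0, Ψ1, Ψ2]; exact i_X1 _ _ _ _ _ _ hxic hhh
  have ΨX2 : Ψ X2 = X2f z' s' m' l' := by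
    rw [hX2, map_gX2, Ψ0, Ψ1, Ψ2]; exact i_X2 _ _ _ _ _ _ hxic hhh
  have Ψy1 : Ψ y1 = y1f z' s' m' l' := by
    rw [hy1, map_gy1, Ψ0, Ψ1, Ψ2]; exact i_y1 _ _ _ _ _ _ hxic hhh
  have Ψy2 : Ψ y2 = z' := by
    rw [hy2, map_gy2, Ψ0, Ψ1, Ψ2]; exact i_y2 _ _ _ _ _ _ hxic hhh
  refine ⟨AlgEquiv.ofAlgHom Φ Ψ ?_ ?_⟩
  · apply MvPolynomial.algHom_ext
    intro i
    fin_cases i
    · change Φ (Ψ p) = p
      rw [Ψ0]
      have : pf z' s' m' l' = Ideal.Quotient.mkₐ ℂ I (pf (X 0) (X 1) (X 2) (X 3)) := by rw [map_pf]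
      rw [this, hΦ, φp]
    · change Φ (Ψ A) = A
      rw [Ψ1]
      have : Af z' s' m' l' = Ideal.Quotient.mkₐ ℂ I (Af (X 0) (X 1) (X 2) (X 3)) := by rw [map_Af]
      rw [this, hΦ, φA]
    · change Φ (Ψ B) = B
      rw [Ψ2]
      have : Bf z' s' m' l' = Ideal.Quotient.mkₐ ℂ I (Bf (X 0) (X 1) (X 2) (X 3)) := by rw [map_Bf]
      rw [this, hΦ, φB]
  · apply Ideal.Quotient.algHom_ext
    apply MvPolynomial.algHom_ext
    intro i
    fin_cases i
    · change Ψ (φ (X 0)) = z'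
      rw [φ0, Ψy2]
    · change Ψ (φ (X 1)) = s'
      rw [φ1, map_sI, ΨX1, ΨX2, Ψy1, Ψy2, ← hxq]; exact fn_s _ _ _ _
    · change Ψ (φ (X 2)) = m'
      rw [φ2, map_mI, ΨX1, ΨX2, Ψy1, Ψy2, ← hxq]; exact fn_m _ _ _ _
    · change Ψ (φ (X 3)) = l'
      rw [φ3, map_lI, ΨX1, ΨX2, Ψy1, Ψy2, ← hxq]; exact fn_l _ _ _ _

end Crest.Agent.DW
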