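import Crest.Agent.DW.Defs
set_option autoImplicit false
namespace Crest.Agent.DW
open MvPolynomial

section gen
variable {S : Type*} [CommRing S]

theorem fn_q (x X1 X2 y1 y2 : S) (h : rel x X1 X2 y1 y2 = 0) :
    qf y2 (sI x X1 X2 y1 y2) (mI x X1 X2 y1 y2) (lI x X1 X2 y1 y2) = X1 * X2 + x * y1 + 1 := by
  have e : qf y2 (sI x X1 X2 y1 y2) (mI x X1 X2 y1 y2) (lI x X1 X2 y1 y2)
      = X1 * X2 + x * y1 + 1 - rel x X1 X2 y1 y2 * sI x X1 X2 y1 y2 := by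
    unfold qf sI mI lI rel; ring
  rw [e, h]; ring

theorem fn_p (x X1 X2 y1 y2 : S) (h : rel x X1 X2 y1 y2 = 0) :
    pf y2 (sI x X1 X2 y1 y2) (mI x X1 X2 y1 y2) (lI x X1 X2 y1 y2) = X1 * X2 + x * y1 := by
  unfold pf; rw [fn_q _ _ _ _ _ h]; ring

theorem fn_x (x X1 X2 y1 y2 : S) (h : rel x X1 X2 y1 y2 = 0) :
    xf y2 (sI x X1 X2 y1 y2) (mI x X1 X2 y1 y2) (lI x X1 X2 y1 y2) = x := by
  unfold xf; rw [fn_q _ _ _ _ _ h]
  unfold rel at h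
  unfold sI mI lI
  linear_combination (-(X1 * X2 + x * y1 + 1)^2) * h

theorem fn_X1 (x X1 X2 y1 y2 : S) (h : rel x X1 X2 y1 y2 = 0) :
    X1f y2 (sI x X1 X2 y1 y2) (mI x X1 X2 y1 y2) (lI x X1 X2 y1 y2) = X1 := by
  unfold X1f; rw [fn_q _ _ _ _ _ h]
  unfold rel at h
  unfold sI mI lI
  linear_combination (-(1 + y2 * (X1 * X2 + x * y1 + 1))) * h

theorem fn_X2 (x X1 X2 y1 y2 : S) (h : rel x X1 X2 y1 y2 = 0) :
    X2f y2 (sI x X1 X2 y1 y2) (mI x X1 X2 y1 y2) (lI x X1 X2 y1 y2) = X2 := by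
  unfold X2f; rw [fn_q _ _ _ _ _ h]
  unfold sI lI
  ring

theorem fn_y1 (x X1 X2 y1 y2 : S) (h : rel x X1 X2 y1 y2 = 0) :
    y1f y2 (sI x X1 X2 y1 y2) (mI x X1 X2 y1 y2) (lI x X1 X2 y1 y2) = y1 := by
  unfold y1f; rw [fn_q _ _ _ _ _ h]
  unfold sI lI
  ring

theorem fn_hq (z s m l : S) :
    X1f z s m l * X2f z s m l + xf z s m l * y1f z s m l + 1 = qf z s m l := by
  rw [← id_p]; unfold pf; ring

theorem fn_s (z s m l : S) :
    sI (xf z s m l) (X1f z s m l) (X2f z s m l) (y1f z s m l) z = s := by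
  unfold sI; rw [fn_hq]; unfold X2f y1f; ring

theorem fn_m (z s m l : S) :
    mI (xf z s m l) (X1f z s m l) (X2f z s m l) (y1f z s m l) z = m := by
  unfold mI; rw [fn_hq]; unfold X2f y1f X1f xf; ring

theorem fn_l (z s m l : S) :
    lI (xf z s m l) (X1f z s m l) (X2f z s m l) (y1f z s m l) z = l := by
  unfold lI; rw [fn_hq]; unfold X2f y1f; ring

end gen
end Crest.Agent.DW
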