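import Crest.Agent.DW.Defs

/-! Row 268 / S0408 (helper61).  Inverse identities: `W = ℂ[x,X1,X2,y1,y2]/(rel)`. -/

set_option autoImplicit false

namespace Crest.Agent.DW

section
variable {S : Type*} [CommRing S]

theorem inv_Q (z s m l : S) :
    X1f z s m l * X2f z s m l + xf z s m l * y1f z s m l = qf z s m l - 1 := by
  rw [← id_p]; rfl

theorem inv_s (z s m l : S) :
    sI (xf z s m l) (X1f z s m l) (X2f z s m l) (y1f z s m l) z = s := by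
  unfold sI
  rw [inv_Q]
  unfold X2f y1f
  ring

theorem inv_l (z s m l : S) :
    lI (xf z s m l) (X1f z s m l) (X2f z s m l) (y1f z s m l) z = l := by
  unfold lI
  rw [inv_Q]
  unfold X2f y1f
  ring

theorem inv_m (z s m l : S) :
    mI (xf z s m l) (X1f z s m l) (X2f z s m l) (y1f z s m l) z = m := by
  unfold mI
  rw [inv_Q]
  unfold X1f X2f y1f xf
  ring

theorem inv_rel (z s m l : S) :
    rel (xf z s m l) (X1f z s m l) (X2f z s m l) (y1f z s m l) z = 0 := by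
  unfold rel
  rw [inv_Q]
  unfold X1f X2f y1f xf
  have hq : qf z s m l = 1 - (1 - 2 * z) * s ^ 2 - m * l := rfl
  linear_combination (exp := 1) 0 * hq

theorem back_q (x X1 X2 y1 y2 : S) (h : rel x X1 X2 y1 y2 = 0) :
    qf y2 (sI x X1 X2 y1 y2) (mI x X1 X2 y1 y2) (lI x X1 X2 y1 y2) = X1 * X2 + x * y1 + 1 := by
  unfold rel at h
  unfold qf sI mI lI
  linear_combination (-x^2*y1^3 - 2*x*X1*X2*y1^2 - x*X2*y1*y2 - 2*x*y1^2 - X1^2*X2^2*y1
    - X1*X2^2*y2 - 2*X1*X2*y1 - X2*y2 - X2 - y1) * h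

theorem back_p (x X1 X2 y1 y2 : S) (h : rel x X1 X2 y1 y2 = 0) :
    pf y2 (sI x X1 X2 y1 y2) (mI x X1 X2 y1 y2) (lI x X1 X2 y1 y2) = X1 * X2 + x * y1 := by
  unfold pf
  rw [back_q x X1 X2 y1 y2 h]
  ring

theorem back_x (x X1 X2 y1 y2 : S) (h : rel x X1 X2 y1 y2 = 0) :
    xf y2 (sI x X1 X2 y1 y2) (mI x X1 X2 y1 y2) (lI x X1 X2 y1 y2) = x := by
  unfold xf
  rw [back_q x X1 X2 y1 y2 h]
  unfold rel at h
  unfold sI mI lI
  linear_combination (-x^2*y1^2 - 2*x*X1*X2*y1 - 2*x*y1 - X1^2*X2^2 - 2*X1*X2 - 1) * h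

theorem back_X1 (x X1 X2 y1 y2 : S) (h : rel x X1 X2 y1 y2 = 0) :
    X1f y2 (sI x X1 X2 y1 y2) (mI x X1 X2 y1 y2) (lI x X1 X2 y1 y2) = X1 := by
  unfold X1f
  rw [back_q x X1 X2 y1 y2 h]
  unfold rel at h
  unfold sI mI lI
  linear_combination (-x*y1*y2 - X1*X2*y2 - y2 - 1) * h

theorem back_X2 (x X1 X2 y1 y2 : S) (h : rel x X1 X2 y1 y2 = 0) :
    X2f y2 (sI x X1 X2 y1 y2) (mI x X1 X2 y1 y2) (lI x X1 X2 y1 y2) = X2 := by
  unfold X2f
  rw [back_q x X1 X2 y1 y2 h]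
  unfold sI lI
  ring

theorem back_y1 (x X1 X2 y1 y2 : S) (h : rel x X1 X2 y1 y2 = 0) :
    y1f y2 (sI x X1 X2 y1 y2) (mI x X1 X2 y1 y2) (lI x X1 X2 y1 y2) = y1 := by
  unfold y1f
  rw [back_q x X1 X2 y1 y2 h]
  unfold sI lI
  ring

end

end Crest.Agent.DW
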