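import Crest.Agent.DW.Defs
set_option autoImplicit false
namespace Crest.Agent.DW

/-! inverse formulas (lead): at the point `(y2, sI, mI, lI)` with `rel = 0` the functions
`qf, pf, xf, X1f, X2f, y1f, Af, Bf, laf` take the expected values. -/

section
variable {S : Type*} [CommRing S]

theorem qf_inv_gen (x X1 X2 y1 y2 : S) :
    qf y2 (sI x X1 X2 y1 y2) (mI x X1 X2 y1 y2) (lI x X1 X2 y1 y2)
      = X1 * X2 + x * y1 + 1 - sI x X1 X2 y1 y2 * rel x X1 X2 y1 y2 := by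
  unfold qf sI mI lI rel; ring

variable {x X1 X2 y1 y2 : S}

theorem qf_inv (h : rel x X1 X2 y1 y2 = 0) :
    qf y2 (sI x X1 X2 y1 y2) (mI x X1 X2 y1 y2) (lI x X1 X2 y1 y2) = X1 * X2 + x * y1 + 1 := by
  rw [qf_inv_gen, h]; ring

theorem pf_inv (h : rel x X1 X2 y1 y2 = 0) :
    pf y2 (sI x X1 X2 y1 y2) (mI x X1 X2 y1 y2) (lI x X1 X2 y1 y2) = X1 * X2 + x * y1 := by
  unfold pf; rw [qf_inv h]; ring

theorem xf_inv (h : rel x X1 X2 y1 y2 = 0) :
    xf y2 (sI x X1 X2 y1 y2) (mI x X1 X2 y1 y2) (lI x X1 X2 y1 y2) = x := by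
  unfold xf; rw [qf_inv h]
  have h' := h
  unfold rel at h'
  unfold sI mI lI
  linear_combination (-(X1 * X2 + x * y1 + 1) ^ 2) * h'

theorem X1f_inv (h : rel x X1 X2 y1 y2 = 0) :
    X1f y2 (sI x X1 X2 y1 y2) (mI x X1 X2 y1 y2) (lI x X1 X2 y1 y2) = X1 := by
  unfold X1f; rw [qf_inv h]
  have h' := h
  unfold rel at h'
  unfold sI mI lI
  linear_combination (-(1 + y2 * (X1 * X2 + x * y1 + 1))) * h'

theorem X2f_inv (h : rel x X1 X2 y1 y2 = 0) :
    X2f y2 (sI x X1 X2 y1 y2) (mI x X1 X2 y1 y2) (lI x X1 X2 y1 y2) = X2 := by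
  unfold X2f; rw [qf_inv h]
  unfold sI lI
  ring

theorem y1f_inv (h : rel x X1 X2 y1 y2 = 0) :
    y1f y2 (sI x X1 X2 y1 y2) (mI x X1 X2 y1 y2) (lI x X1 X2 y1 y2) = y1 := by
  unfold y1f; rw [qf_inv h]
  unfold sI lI
  ring

theorem Af_inv (h : rel x X1 X2 y1 y2 = 0) :
    Af y2 (sI x X1 X2 y1 y2) (mI x X1 X2 y1 y2) (lI x X1 X2 y1 y2)
      = X2 * (X1 * X2 + x * y1 - 1) + x * y2 := by
  unfold Af; rw [X2f_inv h, pf_inv h, xf_inv h]

theorem Bf_inv (h : rel x X1 X2 y1 y2 = 0) :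
    Bf y2 (sI x X1 X2 y1 y2) (mI x X1 X2 y1 y2) (lI x X1 X2 y1 y2)
      = X1 * (X1 * X2 + x * y1 + 1) - x * y2 := by
  unfold Bf; rw [X1f_inv h, pf_inv h, xf_inv h]

theorem laf_inv (h : rel x X1 X2 y1 y2 = 0) :
    laf y2 (sI x X1 X2 y1 y2) (mI x X1 X2 y1 y2) (lI x X1 X2 y1 y2) = X1 + X2 := by
  unfold laf; rw [X1f_inv h, X2f_inv h]

end

section
variable {S : Type*} [CommRing S]

/-- the functions `x, X1, X2, y1, y2 = z` of `(z,s,m,l)` satisfy `rel = 0` -/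
theorem rel_f (z s m l : S) :
    rel (xf z s m l) (X1f z s m l) (X2f z s m l) (y1f z s m l) z = 0 := by
  have hp : X1f z s m l * X2f z s m l + xf z s m l * y1f z s m l = pf z s m l := (id_p z s m l).symm
  unfold rel
  rw [hp]
  unfold X1f X2f xf y1f pf qf; ring

theorem sI_f (z s m l : S) :
    sI (xf z s m l) (X1f z s m l) (X2f z s m l) (y1f z s m l) z = s := by
  have hp : X1f z s m l * X2f z s m l + xf z s m l * y1f z s m l = pf z s m l := (id_p z s m l).symm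
  unfold sI
  rw [hp]
  unfold X2f y1f pf; ring

theorem lI_f (z s m l : S) :
    lI (xf z s m l) (X1f z s m l) (X2f z s m l) (y1f z s m l) z = l := by
  have hp : X1f z s m l * X2f z s m l + xf z s m l * y1f z s m l = pf z s m l := (id_p z s m l).symm
  unfold lI
  rw [hp]
  unfold X2f y1f pf; ring

theorem mI_f (z s m l : S) :
    mI (xf z s m l) (X1f z s m l) (X2f z s m l) (y1f z s m l) z = m := by
  have hp : X1f z s m l * X2f z s m l + xf z s m l * y1f z s m l = pf z s m l := (id_p z s m l).symm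
  unfold mI
  rw [hp]
  unfold X1f X2f xf y1f pf; ring

end

end Crest.Agent.DW
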