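import Crest.Agent.DW.RModel

set_option autoImplicit false
namespace Crest.Agent.DW
open MvPolynomial

/-- expansion along `δ = 1/t, σ = t(1+ta)` -/
theorem key1_79 (n : ℕ) (Fr : ℕ → P3)
    (h : ∑ i ∈ Finset.range (n + 1), thR (Fr i) * (X 0 + X 1) ^ i = 0) (a : ℂ) :
    eval ![1, a, 0] (Fr n) = 0 := by
  classical
  let v : Fin 3 → Polynomial ℂ :=
    ![1 + Polynomial.C a * Polynomial.X, Polynomial.C a,
      Polynomial.X * (1 + Polynomial.C a * Polynomial.X) * (2 + Polynomial.C a * Polynomial.X)]
  let Q : Polynomial ℂ := ∑ i ∈ Finset.range (n + 1),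
    aeval v (Fr i) * Polynomial.X ^ (n - i)
      * (1 + Polynomial.X ^ 2 * (1 + Polynomial.C a * Polynomial.X)) ^ i
  have hev : ∀ (t : ℂ) (F : P3), Polynomial.eval t (aeval v F)
      = eval ![1 + a * t, a, t * (1 + a * t) * (2 + a * t)] F := by
    intro t F
    rw [← Polynomial.coe_aeval_eq_eval, MvPolynomial.comp_aeval_apply]
    have : (fun i => Polynomial.aeval t (v i)) = ![1 + a * t, a, t * (1 + a * t) * (2 + a * t)] := by
      funext i
      fin_cases i <;> simp [v]
    rw [this, MvPolynomial.aeval_eq_eval]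
  have hQeval : ∀ t : ℂ, Polynomial.eval t Q = ∑ i ∈ Finset.range (n + 1),
      eval ![1 + a * t, a, t * (1 + a * t) * (2 + a * t)] (Fr i) * t ^ (n - i)
        * (1 + t ^ 2 * (1 + a * t)) ^ i := by
    intro t
    simp only [Q, Polynomial.eval_finsetSum, Polynomial.eval_mul, hev, Polynomial.eval_pow,
      Polynomial.eval_X, Polynomial.eval_add, Polynomial.eval_one, Polynomial.eval_C]
  have hzero : ∀ t : ℂ, t ≠ 0 → Polynomial.eval t Q = 0 := by
    intro t ht
    rw [hQeval]
    have h1 : ∀ F : P3, eval ![1 / t, t * (1 + a * t)] (thR F)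
        = eval ![1 + a * t, a, t * (1 + a * t) * (2 + a * t)] F := by
      intro F
      rw [← MvPolynomial.aeval_eq_eval, ← MvPolynomial.aeval_eq_eval, thR,
        MvPolynomial.comp_aeval_apply]
      congr 2
      funext i
      fin_cases i
      · simp; field_simp
      · simp; field_simp; ring
      · simp; left; field_simp; ring
    have h2 := congrArg (eval ![1 / t, t * (1 + a * t)]) h
    rw [map_sum, map_zero] at h2
    have h3 : ∑ i ∈ Finset.range (n + 1),
        eval ![1 + a * t, a, t * (1 + a * t) * (2 + a * t)] (Fr i) * (1 / t + t * (1 + a * t)) ^ i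
        = 0 := by
      rw [← h2]
      refine Finset.sum_congr rfl fun i _ => ?_
      rw [map_mul, h1, map_pow, map_add, eval_X, eval_X]
      simp
    have h4 : ∑ i ∈ Finset.range (n + 1),
      eval ![1 + a * t, a, t * (1 + a * t) * (2 + a * t)] (Fr i) * t ^ (n - i)
        * (1 + t ^ 2 * (1 + a * t)) ^ i = t ^ n * ∑ i ∈ Finset.range (n + 1),
        eval ![1 + a * t, a, t * (1 + a * t) * (2 + a * t)] (Fr i)
          * (1 / t + t * (1 + a * t)) ^ i := by
      rw [Finset.mul_sum]
      refine Finset.sum_congr rfl fun i hi => ?_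
      have hi' : i ≤ n := by
        have := Finset.mem_range.mp hi
        omega
      have e1 : t ^ n = t ^ (n - i) * t ^ i := by
        rw [← pow_add]; congr 1; omega
      have e2 : (1 + t ^ 2 * (1 + a * t)) = t * (1 / t + t * (1 + a * t)) := by
        field_simp
      rw [e2, mul_pow, e1]
      ring
    rw [h4, h3, mul_zero]
  have hQ0 : Q = 0 := by
    apply Polynomial.eq_zero_of_infinite_isRoot
    have hsub : {t : ℂ | t ≠ 0} ⊆ {t | Polynomial.IsRoot Q t} := fun t ht => hzero t ht
    refine Set.Infinite.mono hsub ?_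
    have : ({t : ℂ | t ≠ 0} : Set ℂ) = ({0} : Set ℂ)ᶜ := by
      ext t; simp
    rw [this]
    exact (Set.finite_singleton (0 : ℂ)).infinite_compl
  have h0 := hQeval 0
  rw [hQ0, Polynomial.eval_zero] at h0
  rw [Finset.sum_range_succ] at h0
  rw [Finset.sum_eq_zero] at h0
  · simpa using h0.symm
  · intro i hi
    have : n - i ≠ 0 := by
      have := Finset.mem_range.mp hi
      omega
    simp [this]

/-- expansion along `σ = 1/t, δ = t(-1+tb)` -/
theorem key2_79 (n : ℕ) (Fr : ℕ → P3)
    (h : ∑ i ∈ Finset.range (n + 1), thR (Fr i) * (X 0 + X 1) ^ i = 0) (b : ℂ) :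
    eval ![-1, 0, b] (Fr n) = 0 := by
  classical
  let v : Fin 3 → Polynomial ℂ :=
    ![-1 + Polynomial.C b * Polynomial.X,
      Polynomial.X * (-1 + Polynomial.C b * Polynomial.X) * (-2 + Polynomial.C b * Polynomial.X),
      Polynomial.C b]
  let Q : Polynomial ℂ := ∑ i ∈ Finset.range (n + 1),
    aeval v (Fr i) * Polynomial.X ^ (n - i)
      * (1 + Polynomial.X ^ 2 * (-1 + Polynomial.C b * Polynomial.X)) ^ i
  have hev : ∀ (t : ℂ) (F : P3), Polynomial.eval t (aeval v F)
      = eval ![-1 + b * t, t * (-1 + b * t) * (-2 + b * t), b] F := by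
    intro t F
    rw [← Polynomial.coe_aeval_eq_eval, MvPolynomial.comp_aeval_apply]
    have : (fun i => Polynomial.aeval t (v i))
        = ![-1 + b * t, t * (-1 + b * t) * (-2 + b * t), b] := by
      funext i
      fin_cases i <;> simp [v]
    rw [this, MvPolynomial.aeval_eq_eval]
  have hQeval : ∀ t : ℂ, Polynomial.eval t Q = ∑ i ∈ Finset.range (n + 1),
      eval ![-1 + b * t, t * (-1 + b * t) * (-2 + b * t), b] (Fr i) * t ^ (n - i)
        * (1 + t ^ 2 * (-1 + b * t)) ^ i := by
    intro t
    simp only [Q, Polynomial.eval_finsetSum, Polynomial.eval_mul, hev, Polynomial.eval_pow,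
      Polynomial.eval_X, Polynomial.eval_add, Polynomial.eval_one, Polynomial.eval_C,
      Polynomial.eval_neg]
  have hzero : ∀ t : ℂ, t ≠ 0 → Polynomial.eval t Q = 0 := by
    intro t ht
    rw [hQeval]
    have h1 : ∀ F : P3, eval ![t * (-1 + b * t), 1 / t] (thR F)
        = eval ![-1 + b * t, t * (-1 + b * t) * (-2 + b * t), b] F := by
      intro F
      rw [← MvPolynomial.aeval_eq_eval, ← MvPolynomial.aeval_eq_eval, thR,
        MvPolynomial.comp_aeval_apply]
      congr 2
      funext i
      fin_cases i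
      · simp; field_simp
      · simp; left; field_simp; ring
      · simp; field_simp; ring
    have h2 := congrArg (eval ![t * (-1 + b * t), 1 / t]) h
    rw [map_sum, map_zero] at h2
    have h3 : ∑ i ∈ Finset.range (n + 1),
        eval ![-1 + b * t, t * (-1 + b * t) * (-2 + b * t), b] (Fr i)
          * (t * (-1 + b * t) + 1 / t) ^ i = 0 := by
      rw [← h2]
      refine Finset.sum_congr rfl fun i _ => ?_
      rw [map_mul, h1, map_pow, map_add, eval_X, eval_X]
      simp
    have h4 : ∑ i ∈ Finset.range (n + 1),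
      eval ![-1 + b * t, t * (-1 + b * t) * (-2 + b * t), b] (Fr i) * t ^ (n - i)
        * (1 + t ^ 2 * (-1 + b * t)) ^ i = t ^ n * ∑ i ∈ Finset.range (n + 1),
        eval ![-1 + b * t, t * (-1 + b * t) * (-2 + b * t), b] (Fr i)
          * (t * (-1 + b * t) + 1 / t) ^ i := by
      rw [Finset.mul_sum]
      refine Finset.sum_congr rfl fun i hi => ?_
      have hi' : i ≤ n := by
        have := Finset.mem_range.mp hi
        omega
      have e1 : t ^ n = t ^ (n - i) * t ^ i := by
        rw [← pow_add]; congr 1; omega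
      have e2 : (1 + t ^ 2 * (-1 + b * t)) = t * (t * (-1 + b * t) + 1 / t) := by
        field_simp
        ring
      rw [e2, mul_pow, e1]
      ring
    rw [h4, h3, mul_zero]
  have hQ0 : Q = 0 := by
    apply Polynomial.eq_zero_of_infinite_isRoot
    have hsub : {t : ℂ | t ≠ 0} ⊆ {t | Polynomial.IsRoot Q t} := fun t ht => hzero t ht
    refine Set.Infinite.mono hsub ?_
    have : ({t : ℂ | t ≠ 0} : Set ℂ) = ({0} : Set ℂ)ᶜ := by
      ext t; simp
    rw [this]
    exact (Set.finite_singleton (0 : ℂ)).infinite_compl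
  have h0 := hQeval 0
  rw [hQ0, Polynomial.eval_zero] at h0
  rw [Finset.sum_range_succ] at h0
  rw [Finset.sum_eq_zero] at h0
  · simpa using h0.symm
  · intro i hi
    have : n - i ≠ 0 := by
      have := Finset.mem_range.mp hi
      omega
    simp [this]

theorem K1_79 (G : Polynomial RR)
    (h : Polynomial.eval₂ RR.val.toRingHom (X 0 + X 1) G = 0) :
    OnL1 G.leadingCoeff ∧ OnL2 G.leadingCoeff := by
  classical
  choose Fr hFr using fun i => tr_surj (G.coeff i)
  have main : ∀ F : P3, tr F = G.leadingCoeff →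
      ∑ i ∈ Finset.range (G.natDegree + 1),
        thR ((fun i => if i = G.natDegree then F else Fr i) i) * (X 0 + X 1 : U) ^ i = 0 := by
    intro F hF
    rw [← h, Polynomial.eval₂_eq_sum_range]
    refine Finset.sum_congr rfl fun i _ => ?_
    congr 1
    by_cases hi : i = G.natDegree
    · simp only [hi, if_true]
      rw [← tr_val, hF]
      rfl
    · simp only [hi, if_false]
      rw [← tr_val, hFr]
      rfl
  constructor
  · intro F hF a
    have := key1_79 _ _ (main F hF) a
    simpa using this
  · intro F hF b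
    have := key2_79 _ _ (main F hF) b
    simpa using this

end Crest.Agent.DW
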