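import Crest.Agent.DW.Defs
import Crest.Agent.DW.LND
set_option autoImplicit false
namespace Crest.Agent.DW
open MvPolynomial

/-! φ-level LND lemmas (lead): `D` a derivation of `P4` which descends along `th` and is locally nilpotent
modulo `ker th`. -/

/-- the range of `th` -/
def S0 : Type := th.range

noncomputable instance : CommRing S0 := inferInstanceAs (CommRing th.range)
noncomputable instance : Algebra ℂ S0 := inferInstanceAs (Algebra ℂ th.range)
instance : IsDomain S0 := inferInstanceAs (IsDomain th.range)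

/-- `th` as a map onto its range -/
noncomputable def rr : P4 →ₐ[ℂ] S0 := th.rangeRestrict

theorem rr_surj : Function.Surjective rr := AlgHom.rangeRestrict_surjective th

theorem rr_eq_zero {F : P4} : rr F = 0 ↔ th F = 0 := by
  constructor
  · intro h
    exact congrArg (Subtype.val (p := fun x => x ∈ th.range)) h
  · intro h
    exact Subtype.ext h

theorem rr_eq {F G : P4} : rr F = rr G ↔ th F = th G := by
  rw [← sub_eq_zero, ← map_sub, rr_eq_zero, map_sub, sub_eq_zero]

section
variable (D : Derivation ℂ P4 P4) (h1 : ∀ F, th F = 0 → th (D F) = 0)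

/-- the derivation induced on `range th` -/
noncomputable def Dbar : Derivation ℂ S0 S0 :=
  Derivation.liftOfSurjective (R := ℂ) (f := rr) rr_surj
    (d := D) (fun x hx => rr_eq_zero.2 (h1 x (rr_eq_zero.1 hx)))

theorem Dbar_apply (F : P4) : Dbar D h1 (rr F) = rr (D F) :=
  Derivation.liftOfSurjective_apply (R := ℂ) (f := rr) rr_surj (d := D)
    (fun x hx => rr_eq_zero.2 (h1 x (rr_eq_zero.1 hx))) F

theorem Dbar_iter (n : ℕ) (F : P4) :
    (⇑(Dbar D h1))^[n] (rr F) = rr ((⇑D)^[n] F) := by
  induction n generalizing F with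
  | zero => rfl
  | succ n ih => rw [Function.iterate_succ_apply, Dbar_apply, ih, Function.iterate_succ_apply]

theorem Dbar_LN (h2 : ∀ F, ∃ n : ℕ, th ((⇑D)^[n] F) = 0) : LN (Dbar D h1) := by
  intro a
  obtain ⟨F, rfl⟩ := rr_surj a
  obtain ⟨n, hn⟩ := h2 F
  exact ⟨n, by rw [Dbar_iter]; exact rr_eq_zero.2 hn⟩

include h1 in
/-- if `D a` is a multiple of `a` (modulo `ker th`) then `D a` is trivial modulo `ker th` -/
theorem dvd_trivial (h2 : ∀ F, ∃ n : ℕ, th ((⇑D)^[n] F) = 0) {a h : P4}
    (hd : th (D a) = th (a * h)) : th (D a) = 0 := by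
  have e : Dbar D h1 (rr a) = rr a * rr h := by
    rw [Dbar_apply, ← map_mul]
    exact rr_eq.2 hd
  have := eq_zero_of_dvd (Dbar_LN D h1 h2) e
  rw [Dbar_apply] at this
  exact rr_eq_zero.1 this

include h1 in
/-- the kernel is factorially closed (modulo `ker th`) -/
theorem mul_trivial (h2 : ∀ F, ∃ n : ℕ, th ((⇑D)^[n] F) = 0) {a b : P4}
    (hab : th (a * b) ≠ 0) (hd : th (D (a * b)) = 0) : th (D a) = 0 := by
  have e : Dbar D h1 (rr a * rr b) = 0 := by
    rw [← map_mul, Dbar_apply]
    exact rr_eq_zero.2 hd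
  have hne : rr a * rr b ≠ 0 := by
    intro h0
    apply hab
    rw [← map_mul] at h0
    exact rr_eq_zero.1 h0
  have := ker_of_mul (Dbar_LN D h1 h2) e hne
  rw [Dbar_apply] at this
  exact rr_eq_zero.1 this

end

end Crest.Agent.DW
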