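import Crest.Agent.DW.PolyGr

/-! The leading part in `X` of a locally nilpotent derivation of `S[X]`. -/

set_option autoImplicit false

namespace Crest.Agent.DW

open Polynomial

variable {S : Type*} [CommRing S] [Algebra ℂ S]

/-- the coefficient of degree `e` of `Δ ∘ C` -/
noncomputable def dl (Δ : Derivation ℂ S[X] S[X]) (e : ℕ) : Derivation ℂ S S :=
  Derivation.mk'
    (((Polynomial.lcoeff S e).restrictScalars ℂ).comp
      ((Δ : S[X] →ₗ[ℂ] S[X]).comp (Polynomial.CAlgHom (R := ℂ) (A := S)).toLinearMap))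
    (fun a b => by
      simp only [LinearMap.comp_apply, AlgHom.toLinearMap_apply, map_mul, CAlgHom_apply,
        LinearMap.restrictScalars_apply, lcoeff_apply, smul_eq_mul, Derivation.coeFn_coe,
        Derivation.leibniz, coeff_add, coeff_C_mul])

theorem dl_apply (Δ : Derivation ℂ S[X] S[X]) (e : ℕ) (r : S) :
    dl Δ e r = (Δ (C r)).coeff e := rfl

variable {Δ : Derivation ℂ S[X] S[X]} {e : ℕ}

theorem part_C (r : S) : (polyGr S).part Δ e (C r) = monomial e (dl Δ e r) := by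
  have h := (polyGr S).part_hom Δ (e : ℤ) ((0 : ℕ) : ℤ) (C r)
  have h0 : (polyGr S).comp ((0 : ℕ) : ℤ) (C r) = C r := by
    change pcomp S _ _ = _
    rw [pcomp_nat, coeff_C_zero]; rfl
  rw [h0] at h
  have h1 : (polyGr S).comp (((0 : ℕ) : ℤ) + (e : ℤ)) (Δ (C r)) =
      monomial e ((Δ (C r)).coeff e) := by
    have : (((0 : ℕ) : ℤ) + (e : ℤ)) = (e : ℤ) := by simp
    rw [this]
    exact pcomp_nat S e _
  rw [h, h1, dl_apply]

theorem part_X : (polyGr S).part Δ e X = monomial (e + 1) ((Δ X).coeff (e + 1)) := by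
  have h := (polyGr S).part_hom Δ (e : ℤ) ((1 : ℕ) : ℤ) X
  have h0 : (polyGr S).comp ((1 : ℕ) : ℤ) X = X := by
    change pcomp S _ _ = _
    rw [pcomp_nat, coeff_X_one]; rfl
  rw [h0] at h
  have h1 : (polyGr S).comp (((1 : ℕ) : ℤ) + (e : ℤ)) (Δ X) =
      monomial (e + 1) ((Δ X).coeff (e + 1)) := by
    have : (((1 : ℕ) : ℤ) + (e : ℤ)) = ((e + 1 : ℕ) : ℤ) := by push_cast; ring
    rw [this]
    exact pcomp_nat S (e + 1) _
  rw [h, h1]

variable [IsDomain S]

theorem part_X_eq_zero (hN : LN Δ) (hD : (polyGr S).DegLE Δ (e : ℤ)) :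
    (polyGr S).part Δ e X = 0 := by
  refine eq_zero_of_dvd ((polyGr S).part_LN hD hN) (b := monomial e ((Δ X).coeff (e + 1))) ?_
  rw [part_X, X_mul_monomial]

theorem coeff_X_eq_zero (hN : LN Δ) (hD : (polyGr S).DegLE Δ (e : ℤ)) :
    (Δ X).coeff (e + 1) = 0 := by
  have h := part_X_eq_zero hN hD
  rw [part_X] at h
  exact (monomial_eq_zero_iff _ _).1 h

theorem part_monomial (hN : LN Δ) (hD : (polyGr S).DegLE Δ (e : ℤ)) (k : ℕ) (r : S) :
    (polyGr S).part Δ e (monomial k r) = monomial (k + e) (dl Δ e r) := by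
  rw [← C_mul_X_pow_eq_monomial, Derivation.leibniz, Derivation.leibniz_pow,
    part_X_eq_zero hN hD, part_C]
  simp only [smul_eq_mul, zero_mul, smul_zero, mul_zero, zero_add]
  rw [X_pow_mul_monomial, add_comm]

theorem dl_LN (hN : LN Δ) (hD : (polyGr S).DegLE Δ (e : ℤ)) : LN (dl Δ e) := by
  intro r
  obtain ⟨n, hn⟩ := (polyGr S).part_LN hD hN (C r)
  refine ⟨n, ?_⟩
  have key : ∀ n : ℕ, (⇑((polyGr S).part Δ e))^[n] (C r) = monomial (n * e) ((⇑(dl Δ e))^[n] r) := by
    intro n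
    induction n with
    | zero => simp
    | succ n ih =>
      rw [Function.iterate_succ_apply', ih, part_monomial hN hD, Function.iterate_succ_apply']
      have : n * e + e = (n + 1) * e := by ring
      rw [this]
  rw [key] at hn
  exact (monomial_eq_zero_iff _ _).1 hn

theorem dl_ne (hN : LN Δ) (hD : (polyGr S).DegLE Δ (e : ℤ)) (h : dl Δ e = 0) :
    (polyGr S).DegLE Δ ((e : ℤ) - 1) := by
  refine (polyGr S).degLE_pred hD ?_
  ext F
  rw [Derivation.zero_apply]
  have : ∀ F : S[X], (polyGr S).part Δ (e : ℤ) F = 0 := by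
    intro F
    induction F using Polynomial.induction_on' with
    | add p q hp hq => rw [map_add, hp, hq, add_zero]
    | monomial k r => rw [part_monomial hN hD, h, Derivation.zero_apply, map_zero]
  rw [this]

omit [IsDomain S] in
theorem coeff_of_degLE (hD : (polyGr S).DegLE Δ (e : ℤ)) (r : S) {k : ℕ} (hk : e < k) :
    (Δ (C r)).coeff k = 0 := by
  have h := hD ((0 : ℕ) : ℤ) (C r) (k : ℤ) (by push_cast; omega)
  have h0 : (polyGr S).comp ((0 : ℕ) : ℤ) (C r) = C r := by
    change pcomp S _ _ = _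
    rw [pcomp_nat, coeff_C_zero]; rfl
  rw [h0] at h
  change pcomp S _ _ = _ at h
  rw [pcomp_nat] at h
  exact (monomial_eq_zero_iff _ _).1 h

omit [IsDomain S] in
theorem coeff_X_of_degLE (hD : (polyGr S).DegLE Δ (e : ℤ)) {k : ℕ} (hk : e + 1 < k) :
    (Δ X).coeff k = 0 := by
  have h := hD ((1 : ℕ) : ℤ) X (k : ℤ) (by push_cast; omega)
  have h0 : (polyGr S).comp ((1 : ℕ) : ℤ) X = X := by
    change pcomp S _ _ = _
    rw [pcomp_nat, coeff_X_one]; rfl
  rw [h0] at h
  change pcomp S _ _ = _ at h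
  rw [pcomp_nat] at h
  exact (monomial_eq_zero_iff _ _).1 h

end Crest.Agent.DW
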