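import Crest.Agent.DW.Defs
set_option autoImplicit false
namespace Crest.Agent.DW
open MvPolynomial

namespace NCc

section maps
variable {S T : Type*} [CommRing S] [CommRing T]

theorem map_qf (g : S →+* T) (z s m l : S) : g (qf z s m l) = qf (g z) (g s) (g m) (g l) := by
  simp [qf, map_ofNat]
theorem map_pf (g : S →+* T) (z s m l : S) : g (pf z s m l) = pf (g z) (g s) (g m) (g l) := by
  simp [pf, map_qf]
theorem map_xf (g : S →+* T) (z s m l : S) : g (xf z s m l) = xf (g z) (g s) (g m) (g l) := by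
  simp [xf, map_qf, map_ofNat]
theorem map_X1f (g : S →+* T) (z s m l : S) : g (X1f z s m l) = X1f (g z) (g s) (g m) (g l) := by
  simp [X1f, map_qf, map_ofNat]
theorem map_X2f (g : S →+* T) (z s m l : S) : g (X2f z s m l) = X2f (g z) (g s) (g m) (g l) := by
  simp [X2f, map_qf]
theorem map_y1f (g : S →+* T) (z s m l : S) : g (y1f z s m l) = y1f (g z) (g s) (g m) (g l) := by
  simp [y1f, map_qf]
theorem map_Af (g : S →+* T) (z s m l : S) : g (Af z s m l) = Af (g z) (g s) (g m) (g l) := by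
  simp [Af, map_pf, map_xf, map_X2f]
theorem map_Bf (g : S →+* T) (z s m l : S) : g (Bf z s m l) = Bf (g z) (g s) (g m) (g l) := by
  simp [Bf, map_pf, map_xf, map_X1f]
theorem map_laf (g : S →+* T) (z s m l : S) : g (laf z s m l) = laf (g z) (g s) (g m) (g l) := by
  simp [laf, map_X1f, map_X2f]
theorem map_sI (g : S →+* T) (x X1 X2 y1 y2 : S) :
    g (sI x X1 X2 y1 y2) = sI (g x) (g X1) (g X2) (g y1) (g y2) := by
  simp [sI]
theorem map_mI (g : S →+* T) (x X1 X2 y1 y2 : S) :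
    g (mI x X1 X2 y1 y2) = mI (g x) (g X1) (g X2) (g y1) (g y2) := by
  simp [mI, map_ofNat]
theorem map_lI (g : S →+* T) (x X1 X2 y1 y2 : S) :
    g (lI x X1 X2 y1 y2) = lI (g x) (g X1) (g X2) (g y1) (g y2) := by
  simp [lI]

/-! forward: from `rel = 0` -/
theorem qf_I (x X1 X2 y1 y2 : S) (h : rel x X1 X2 y1 y2 = 0) :
    qf y2 (sI x X1 X2 y1 y2) (mI x X1 X2 y1 y2) (lI x X1 X2 y1 y2) = X1 * X2 + x * y1 + 1 := by
  have key : ∀ q : S, q = X1 * X2 + x * y1 + 1 →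
      X1 + X2 + y1 * ((q - 1) ^ 2 - 1) + x * y2 ^ 2 - y2 * (X1 * q - X2 * (q - 2)) = 0 →
      1 - (1 - 2 * y2) * (X2 * (1 + y2 * q) + y1 * q ^ 2) ^ 2
        - ((x + 2 * q * X2) * (1 + y2 * q) + (2 * q * y1 - X1) * q ^ 2)
          * (X2 * y2 ^ 2 - y1 * (1 - y2 * q)) = q := by
    intro q hq hr
    linear_combination (-(X2 * (1 + y2 * q) + y1 * q ^ 2)) * hr - hq
  have h2 := key _ rfl (by rw [← h]; unfold rel; ring)
  rw [← h2]
  unfold qf sI mI lI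
  rw [h2]

theorem X2f_I (x X1 X2 y1 y2 : S) (h : rel x X1 X2 y1 y2 = 0) :
    X2f y2 (sI x X1 X2 y1 y2) (mI x X1 X2 y1 y2) (lI x X1 X2 y1 y2) = X2 := by
  unfold X2f
  rw [qf_I _ _ _ _ _ h]
  unfold sI lI
  ring

theorem y1f_I (x X1 X2 y1 y2 : S) (h : rel x X1 X2 y1 y2 = 0) :
    y1f y2 (sI x X1 X2 y1 y2) (mI x X1 X2 y1 y2) (lI x X1 X2 y1 y2) = y1 := by
  unfold y1f
  rw [qf_I _ _ _ _ _ h]
  unfold sI lI
  ring

theorem X1f_I (x X1 X2 y1 y2 : S) (h : rel x X1 X2 y1 y2 = 0) :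
    X1f y2 (sI x X1 X2 y1 y2) (mI x X1 X2 y1 y2) (lI x X1 X2 y1 y2) = X1 := by
  unfold X1f
  rw [qf_I _ _ _ _ _ h]
  unfold rel at h
  unfold sI lI mI
  linear_combination (-(1 + y2 * (X1 * X2 + x * y1 + 1))) * h

theorem xf_I (x X1 X2 y1 y2 : S) (h : rel x X1 X2 y1 y2 = 0) :
    xf y2 (sI x X1 X2 y1 y2) (mI x X1 X2 y1 y2) (lI x X1 X2 y1 y2) = x := by
  unfold xf
  rw [qf_I _ _ _ _ _ h]
  unfold rel at h
  unfold sI lI mI
  linear_combination (-((X1 * X2 + x * y1 + 1) ^ 2)) * h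

/-! backward -/
theorem q_eq (z s m l : S) :
    X1f z s m l * X2f z s m l + xf z s m l * y1f z s m l + 1 = qf z s m l := by
  rw [← id_p]; unfold pf; ring

theorem sI_f (z s m l : S) :
    sI (xf z s m l) (X1f z s m l) (X2f z s m l) (y1f z s m l) z = s := by
  unfold sI
  rw [q_eq]
  unfold X2f y1f
  ring

theorem lI_f (z s m l : S) :
    lI (xf z s m l) (X1f z s m l) (X2f z s m l) (y1f z s m l) z = l := by
  unfold lI
  rw [q_eq]
  unfold X2f y1f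
  ring

theorem mI_f (z s m l : S) :
    mI (xf z s m l) (X1f z s m l) (X2f z s m l) (y1f z s m l) z = m := by
  unfold mI
  rw [q_eq]
  unfold X2f y1f X1f xf
  ring

theorem rel_f (z s m l : S) :
    rel (xf z s m l) (X1f z s m l) (X2f z s m l) (y1f z s m l) z = 0 := by
  unfold rel
  rw [show X1f z s m l * X2f z s m l + xf z s m l * y1f z s m l = qf z s m l - 1 from by
    rw [← q_eq]; ring]
  unfold X2f y1f X1f xf
  ring

/-! the fibre `x = 0` -/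
def Y1 (c X1 X2 e : S) : S :=
  c * (4 + X1 ^ 2 - X2 ^ 2) * (X1 + X2) - ((X1 * X2 + 1) * X1 - (X1 * X2 - 1) * X2) * e
def Y2 (c X1 X2 e : S) : S :=
  c * ((X1 * X2 + 1) * X2 + (X1 * X2 - 1) * X1) * (X1 + X2) - ((X1 * X2) ^ 2 - 1) * e
def eE (c X1 X2 y1 y2 : S) : S :=
  -(c * ((X1 * X2 + 1) * X2 + (X1 * X2 - 1) * X1)) * y1 + c * (4 + X1 ^ 2 - X2 ^ 2) * y2

theorem map_Y1 (g : S →+* T) (c X1 X2 e : S) : g (Y1 c X1 X2 e) = Y1 (g c) (g X1) (g X2) (g e) := by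
  simp [Y1, map_ofNat]
theorem map_Y2 (g : S →+* T) (c X1 X2 e : S) : g (Y2 c X1 X2 e) = Y2 (g c) (g X1) (g X2) (g e) := by
  simp [Y2]
theorem map_eE (g : S →+* T) (c X1 X2 y1 y2 : S) :
    g (eE c X1 X2 y1 y2) = eE (g c) (g X1) (g X2) (g y1) (g y2) := by
  simp [eE, map_ofNat]

theorem rel0 (c X1 X2 e : S) (hc : 4 * c = 1) : rel 0 X1 X2 (Y1 c X1 X2 e) (Y2 c X1 X2 e) = 0 := by
  unfold rel Y1 Y2
  linear_combination (-(X1 + X2)) * hc

theorem Y1_eE (c X1 X2 y1 y2 : S) (hc : 4 * c = 1) (h : rel 0 X1 X2 y1 y2 = 0) :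
    Y1 c X1 X2 (eE c X1 X2 y1 y2) = y1 := by
  unfold rel at h
  unfold Y1 eE
  linear_combination (c * (4 + X1 ^ 2 - X2 ^ 2)) * h + y1 * hc

theorem Y2_eE (c X1 X2 y1 y2 : S) (hc : 4 * c = 1) (h : rel 0 X1 X2 y1 y2 = 0) :
    Y2 c X1 X2 (eE c X1 X2 y1 y2) = y2 := by
  unfold rel at h
  unfold Y2 eE
  linear_combination (c * ((X1 * X2 + 1) * X2 + (X1 * X2 - 1) * X1)) * h + y2 * hc

end maps

/-! the maps -/
abbrev P3 := MvPolynomial (Fin 3) ℂ

noncomputable def c4 : P3 := C (1 / 4)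

theorem hc4 : 4 * c4 = 1 := by
  have h : (4 : P3) = C 4 := by simp [map_ofNat]
  rw [h, c4, ← C_mul]
  norm_num

noncomputable def phi : W →ₐ[ℂ] P3 :=
  aeval ![Y2 c4 (X 0) (X 1) (X 2),
    sI 0 (X 0) (X 1) (Y1 c4 (X 0) (X 1) (X 2)) (Y2 c4 (X 0) (X 1) (X 2)),
    mI 0 (X 0) (X 1) (Y1 c4 (X 0) (X 1) (X 2)) (Y2 c4 (X 0) (X 1) (X 2)),
    lI 0 (X 0) (X 1) (Y1 c4 (X 0) (X 1) (X 2)) (Y2 c4 (X 0) (X 1) (X 2))]

theorem phi0 : phi (X 0) = Y2 c4 (X 0) (X 1) (X 2) := by simp [phi]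
theorem phi1 : phi (X 1) =
    sI 0 (X 0) (X 1) (Y1 c4 (X 0) (X 1) (X 2)) (Y2 c4 (X 0) (X 1) (X 2)) := by simp [phi]
theorem phi2 : phi (X 2) =
    mI 0 (X 0) (X 1) (Y1 c4 (X 0) (X 1) (X 2)) (Y2 c4 (X 0) (X 1) (X 2)) := by simp [phi]
theorem phi3 : phi (X 3) =
    lI 0 (X 0) (X 1) (Y1 c4 (X 0) (X 1) (X 2)) (Y2 c4 (X 0) (X 1) (X 2)) := by simp [phi]

theorem phi_ff : phi ff = 0 := by
  have h := map_xf (phi : W →+* P3) (X 0) (X 1) (X 2) (X 3)
  simp only [RingHom.coe_coe] at h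
  rw [ff, h, phi0, phi1, phi2, phi3]
  exact xf_I _ _ _ _ _ (rel0 _ _ _ _ hc4)

theorem phi_X1 : phi (X1f (X 0) (X 1) (X 2) (X 3)) = X 0 := by
  have h := map_X1f (phi : W →+* P3) (X 0) (X 1) (X 2) (X 3)
  simp only [RingHom.coe_coe] at h
  rw [h, phi0, phi1, phi2, phi3]
  exact X1f_I _ _ _ _ _ (rel0 _ _ _ _ hc4)

theorem phi_X2 : phi (X2f (X 0) (X 1) (X 2) (X 3)) = X 1 := by
  have h := map_X2f (phi : W →+* P3) (X 0) (X 1) (X 2) (X 3)
  simp only [RingHom.coe_coe] at h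
  rw [h, phi0, phi1, phi2, phi3]
  exact X2f_I _ _ _ _ _ (rel0 _ _ _ _ hc4)

theorem phi_p : phi (pf (X 0) (X 1) (X 2) (X 3)) = X 0 * X 1 := by
  rw [id_p, map_add, map_mul, map_mul, phi_X1, phi_X2]
  have := phi_ff
  rw [ff] at this
  rw [this]; ring

theorem phi_A : phi (Af (X 0) (X 1) (X 2) (X 3)) = X 1 * (X 0 * X 1 - 1) := by
  unfold Af
  rw [map_add, map_mul, map_mul, map_sub, phi_X2, phi_p, map_one]
  have := phi_ff
  rw [ff] at this
  rw [this]; ring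

theorem phi_B : phi (Bf (X 0) (X 1) (X 2) (X 3)) = X 0 * (X 0 * X 1 + 1) := by
  unfold Bf
  rw [map_sub, map_mul, map_mul, map_add, phi_X1, phi_p, map_one]
  have := phi_ff
  rw [ff] at this
  rw [this]; ring

theorem phi_la : phi (laf (X 0) (X 1) (X 2) (X 3)) = X 0 + X 1 := by
  unfold laf
  rw [map_add, phi_X1, phi_X2]

noncomputable def iota : U →ₐ[ℂ] P3 := aeval ![X 1, X 0]
noncomputable def kappa : P3 →ₐ[ℂ] U := aeval ![X 1, X 0, 0]

theorem kappa_iota : kappa.comp iota = AlgHom.id ℂ U := by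
  apply MvPolynomial.algHom_ext
  intro i
  fin_cases i <;> simp [kappa, iota]

theorem iota_inj {u : U} (h : iota u = 0) : u = 0 := by
  have := congrArg kappa h
  rw [map_zero] at this
  have h2 := DFunLike.congr_fun kappa_iota u
  simp only [AlgHom.comp_apply, AlgHom.id_apply] at h2
  rw [← h2, this]

theorem comp_eq : phi.comp vv = iota.comp (ev.comp (th.comp pi0)) := by
  apply MvPolynomial.algHom_ext
  intro i
  fin_cases i
  · simp [vv, pi0, th, ev, iota, phi_p]; ring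
  · simp [vv, pi0, th, ev, iota, phi_A]; ring
  · simp [vv, pi0, th, ev, iota, phi_B]; ring
  · simp [vv, pi0, th, ev, iota, phi_la]; ring
  · simp [vv, pi0, th, ev, iota, phi_ff]

theorem comp_apply (F : P5) : phi (vv F) = iota (ev (th (pi0 F))) := by
  have := DFunLike.congr_fun comp_eq F
  simpa using this

noncomputable def psi : P3 →ₐ[ℂ] W :=
  aeval ![X1f (X 0) (X 1) (X 2) (X 3), X2f (X 0) (X 1) (X 2) (X 3),
    eE (C (1 / 4)) (X1f (X 0) (X 1) (X 2) (X 3)) (X2f (X 0) (X 1) (X 2) (X 3))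
      (y1f (X 0) (X 1) (X 2) (X 3)) (X 0)]

abbrev Q := W ⧸ Ideal.span ({ff} : Set W)
noncomputable def mk : W →ₐ[ℂ] Q := Ideal.Quotient.mkₐ ℂ _

theorem mk_ff : mk ff = 0 := by
  unfold mk
  rw [Ideal.Quotient.mkₐ_eq_mk, Ideal.Quotient.eq_zero_iff_mem]
  exact Ideal.subset_span (Set.mem_singleton _)

theorem comp2 : (mk.comp psi).comp phi = mk := by
  -- images in the quotient
  set z := mk (X 0) with hz
  set s := mk (X 1) with hs
  set m := mk (X 2) with hm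
  set l := mk (X 3) with hl
  set c := mk (C (1 / 4)) with hc
  have hc' : 4 * c = 1 := by
    have h4 : (4 : Q) = mk (C 4) := by simp [map_ofNat]
    rw [h4, hc, ← map_mul, ← C_mul]
    norm_num
  have e1 : mk (X1f (X 0) (X 1) (X 2) (X 3)) = X1f z s m l := by
    simpa using map_X1f (mk : W →+* Q) (X 0) (X 1) (X 2) (X 3)
  have e2 : mk (X2f (X 0) (X 1) (X 2) (X 3)) = X2f z s m l := by
    simpa using map_X2f (mk : W →+* Q) (X 0) (X 1) (X 2) (X 3)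
  have e3 : mk (y1f (X 0) (X 1) (X 2) (X 3)) = y1f z s m l := by
    simpa using map_y1f (mk : W →+* Q) (X 0) (X 1) (X 2) (X 3)
  have e4 : xf z s m l = 0 := by
    have h5 := map_xf (mk : W →+* Q) (X 0) (X 1) (X 2) (X 3)
    simp only [RingHom.coe_coe] at h5
    rw [← hz, ← hs, ← hm, ← hl] at h5
    rw [← h5]
    exact mk_ff
  set g : P3 →ₐ[ℂ] Q := mk.comp psi with hg
  have g0 : g (X 0) = X1f z s m l := by
    rw [← e1]; simp [hg, psi]
  have g1 : g (X 1) = X2f z s m l := by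
    rw [← e2]; simp [hg, psi]
  have g2 : g (X 2) = eE c (X1f z s m l) (X2f z s m l) (y1f z s m l) z := by
    have : g (X 2) = mk (eE (C (1 / 4)) (X1f (X 0) (X 1) (X 2) (X 3)) (X2f (X 0) (X 1) (X 2) (X 3))
      (y1f (X 0) (X 1) (X 2) (X 3)) (X 0)) := by simp [hg, psi]
    rw [this]
    have h5 := map_eE (mk : W →+* Q) (C (1 / 4)) (X1f (X 0) (X 1) (X 2) (X 3))
      (X2f (X 0) (X 1) (X 2) (X 3)) (y1f (X 0) (X 1) (X 2) (X 3)) (X 0)
    simp only [RingHom.coe_coe] at h5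
    rw [h5, e1, e2, e3]
  have gc : g c4 = c := by
    rw [c4, hc]
    simp only [← MvPolynomial.algebraMap_eq, AlgHom.commutes]
  have hrel : rel 0 (X1f z s m l) (X2f z s m l) (y1f z s m l) z = 0 := by
    have := rel_f z s m l
    rwa [e4] at this
  have gY1 : g (Y1 c4 (X 0) (X 1) (X 2)) = y1f z s m l := by
    have h5 := map_Y1 (g : P3 →+* Q) c4 (X 0) (X 1) (X 2)
    simp only [RingHom.coe_coe] at h5
    rw [h5, gc, g0, g1, g2]
    exact Y1_eE _ _ _ _ _ hc' hrel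
  have gY2 : g (Y2 c4 (X 0) (X 1) (X 2)) = z := by
    have h5 := map_Y2 (g : P3 →+* Q) c4 (X 0) (X 1) (X 2)
    simp only [RingHom.coe_coe] at h5
    rw [h5, gc, g0, g1, g2]
    exact Y2_eE _ _ _ _ _ hc' hrel
  apply MvPolynomial.algHom_ext
  intro i
  fin_cases i
  · change g (phi (X 0)) = z
    rw [phi0, gY2]
  · change g (phi (X 1)) = s
    rw [phi1]
    have h5 := map_sI (g : P3 →+* Q) 0 (X 0) (X 1) (Y1 c4 (X 0) (X 1) (X 2))
      (Y2 c4 (X 0) (X 1) (X 2))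
    simp only [RingHom.coe_coe] at h5
    rw [h5, gY1, gY2, g0, g1, map_zero]
    have := sI_f z s m l
    rwa [e4] at this
  · change g (phi (X 2)) = m
    rw [phi2]
    have h5 := map_mI (g : P3 →+* Q) 0 (X 0) (X 1) (Y1 c4 (X 0) (X 1) (X 2))
      (Y2 c4 (X 0) (X 1) (X 2))
    simp only [RingHom.coe_coe] at h5
    rw [h5, gY1, gY2, g0, g1, map_zero]
    have := mI_f z s m l
    rwa [e4] at this
  · change g (phi (X 3)) = l
    rw [phi3]
    have h5 := map_lI (g : P3 →+* Q) 0 (X 0) (X 1) (Y1 c4 (X 0) (X 1) (X 2))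
      (Y2 c4 (X 0) (X 1) (X 2))
    simp only [RingHom.coe_coe] at h5
    rw [h5, gY1, gY2, g0, g1, map_zero]
    have := lI_f z s m l
    rwa [e4] at this

theorem ker_phi (w : W) (h : phi w = 0) : ∃ v : W, w = ff * v := by
  have h1 := DFunLike.congr_fun comp2 w
  simp only [AlgHom.comp_apply, h, map_zero] at h1
  have h2 : w ∈ Ideal.span ({ff} : Set W) := by
    rw [← Ideal.Quotient.eq_zero_iff_mem]
    exact h1.symm
  obtain ⟨v, hv⟩ := Ideal.mem_span_singleton.1 h2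
  exact ⟨v, hv⟩

end NCc

/-- `vv F ∈ f W ↔ ev (th (F|_{x=0})) = 0`. -/
theorem ncc (F : P5) : (∃ w : W, vv F = ff * w) ↔ ev (th (pi0 F)) = 0 := by
  constructor
  · rintro ⟨w, hw⟩
    apply NCc.iota_inj
    rw [← NCc.comp_apply, hw, map_mul, NCc.phi_ff, zero_mul]
  · intro h
    apply NCc.ker_phi
    rw [NCc.comp_apply, h, map_zero]

/-- `p` is not constant modulo `f` (needed in `NCe`): same map φ. -/
theorem p_nonconst (c : ℂ) : ¬ ∃ w : W, pf (X 0) (X 1) (X 2) (X 3) - C c = ff * w := by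
  rintro ⟨w, hw⟩
  have h1 := congrArg (MvPolynomial.eval (![0, 0, 0, 0] : Fin 4 → ℂ)) hw
  have h2 := congrArg (MvPolynomial.eval (![-5, 0, 1, 2] : Fin 4 → ℂ)) hw
  simp [ff, pf, xf, qf, map_ofNat] at h1
  simp [ff, pf, xf, qf, map_ofNat] at h2
  rw [h1, show ((1 : ℂ) + 5 * (1 - 2) - 2 * 2 * (1 - 2) ^ 3) = 0 by norm_num, zero_mul] at h2
  norm_num at h2

end Crest.Agent.DW
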