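import Crest.Agent.DW.Defs
set_option autoImplicit false
namespace Crest.Agent.DW
open MvPolynomial

theorem ncd41 (w : W) : ∃ (N : ℕ) (H : P5), ff ^ N * w = vv H := by
  have e0 : vv (X 0) = pf (X 0) (X 1) (X 2) (X 3) := by simp [vv]
  have e1 : vv (X 1) = Af (X 0) (X 1) (X 2) (X 3) := by simp [vv]
  have e2 : vv (X 2) = Bf (X 0) (X 1) (X 2) (X 3) := by simp [vv]
  have e3 : vv (X 3) = laf (X 0) (X 1) (X 2) (X 3) := by simp [vv]
  have e4 : vv (X 4) = ff := by simp [vv]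
  have hX : ∀ i : Fin 4, ∃ (N : ℕ) (H : P5), ff ^ N * (X i : W) = vv H := by
    -- X1, X2, f z, f y1
    have hh : ((2 : W)) * C (1 / 2 : ℂ) = 1 := by
      have : (2 : W) = C (2 : ℂ) := (map_ofNat C 2).symm
      rw [this, ← C_mul]; norm_num
    have g1 : vv (C (1 / 2) * (X 3 * (1 - X 0) + X 1 + X 2)) = X1f (X 0) (X 1) (X 2) (X 3) := by
      have := id_X1 (X 0 : W) (X 1) (X 2) (X 3)
      rw [map_mul, map_add, map_add, map_mul, map_sub, map_one, e0, e1, e2, e3, ← this,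
        show vv (C (1 / 2 : ℂ)) = (C (1 / 2 : ℂ) : W) from by simp [vv, MvPolynomial.algebraMap_eq]]
      linear_combination X1f (X 0 : W) (X 1) (X 2) (X 3) * hh
    have g2 : vv (C (1 / 2) * (X 3 * (1 + X 0) - X 1 - X 2)) = X2f (X 0) (X 1) (X 2) (X 3) := by
      have := id_X2 (X 0 : W) (X 1) (X 2) (X 3)
      rw [map_mul, map_sub, map_sub, map_mul, map_add, map_one, e0, e1, e2, e3, ← this,
        show vv (C (1 / 2 : ℂ)) = (C (1 / 2 : ℂ) : W) from by simp [vv, MvPolynomial.algebraMap_eq]]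
      linear_combination X2f (X 0 : W) (X 1) (X 2) (X 3) * hh
    obtain ⟨G1, g1⟩ : ∃ G : P5, vv G = X1f (X 0) (X 1) (X 2) (X 3) := ⟨_, g1⟩
    obtain ⟨G2, g2⟩ : ∃ G : P5, vv G = X2f (X 0) (X 1) (X 2) (X 3) := ⟨_, g2⟩
    have gz : vv (X 1 - G2 * (X 0 - 1)) = ff * X 0 := by
      rw [map_sub, map_mul, map_sub, map_one, e0, e1, g2]
      simp only [ff, Af]; ring
    obtain ⟨Gz, gz⟩ : ∃ G : P5, vv G = ff * X 0 := ⟨_, gz⟩
    have gy : vv (X 0 - G1 * G2) = ff * y1f (X 0) (X 1) (X 2) (X 3) := by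
      rw [map_sub, map_mul, e0, g1, g2, id_p]; simp only [ff]; ring
    obtain ⟨Gy, gy⟩ : ∃ G : P5, vv G = ff * y1f (X 0) (X 1) (X 2) (X 3) := ⟨_, gy⟩
    have gs : vv ((X 4 + Gz * (X 0 + 1)) * G2 + (X 0 + 1) ^ 2 * Gy) = ff * X 1 := by
      simp only [map_add, map_mul, map_pow, map_one, e0, e4, g2, gz, gy]
      simp only [ff, X2f, y1f, pf]; ring
    obtain ⟨Gs, gs⟩ : ∃ G : P5, vv G = ff * X 1 := ⟨_, gs⟩
    have gl : vv (Gz ^ 2 * G2 - (X 4 - Gz * (X 0 + 1)) * Gy) = ff ^ 2 * X 3 := by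
      simp only [map_add, map_sub, map_mul, map_pow, map_one, e0, e4, g2, gz, gy]
      simp only [ff, X2f, y1f, pf]; ring
    obtain ⟨Gl, gl⟩ : ∃ G : P5, vv G = ff ^ 2 * X 3 := ⟨_, gl⟩
    have gm : vv (X 4 * (X 4 + Gz * (X 0 + 1) - (X 0 + 1) ^ 2 * G1) + 2 * (X 0 + 1) * Gs)
        = ff * X 2 := by
      simp only [map_add, map_sub, map_mul, map_pow, map_one, map_ofNat, e0, e4, g1, gz, gs]
      simp only [ff, X1f, xf, pf]; ring
    intro i
    fin_cases i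
    · exact ⟨1, Gz, by rw [gz, pow_one]; rfl⟩
    · exact ⟨1, Gs, by rw [gs, pow_one]; rfl⟩
    · exact ⟨1, _, by rw [gm, pow_one]; rfl⟩
    · exact ⟨2, Gl, by rw [gl]; rfl⟩
  induction w using MvPolynomial.induction_on with
  | C c => exact ⟨0, C c, by simp [vv, MvPolynomial.algebraMap_eq]⟩
  | add u v hu hv =>
    obtain ⟨n, H, hn⟩ := hu
    obtain ⟨k, K, hk⟩ := hv
    refine ⟨n + k, X 4 ^ k * H + X 4 ^ n * K, ?_⟩
    simp only [map_add, map_mul, map_pow, e4, ← hn, ← hk]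
    ring
  | mul_X u i hu =>
    obtain ⟨n, H, hn⟩ := hu
    obtain ⟨k, K, hk⟩ := hX i
    refine ⟨n + k, H * K, ?_⟩
    rw [map_mul, ← hn, ← hk]
    ring

theorem p_nonconst41 (c : ℂ) : ¬ ∃ w : W, pf (X 0) (X 1) (X 2) (X 3) - C c = ff * w := by
  rintro ⟨g, hg⟩
  have e1 := congrArg (MvPolynomial.eval (![0, 0, 0, 0] : Fin 4 → ℂ)) hg
  have e2 := congrArg (MvPolynomial.eval (![-5, 0, 1, 2] : Fin 4 → ℂ)) hg
  simp only [ff, xf, pf, qf, map_sub, map_mul, map_add, map_pow, map_one, map_ofNat,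
    eval_X, eval_C, Matrix.cons_val_zero, Matrix.cons_val_one, Matrix.cons_val] at e1 e2
  have h1 : c = 0 := by linear_combination -e1
  have h2 : c = -2 := by linear_combination -e2
  rw [h1] at h2
  norm_num at h2

end Crest.Agent.DW
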