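import Crest.Agent.DW.NCc
set_option autoImplicit false
namespace Crest.Agent.DW
open MvPolynomial

theorem nce_pd_mono (i : Fin 4) : ∀ (k : ℕ) (s : Fin 4 →₀ ℕ) (a : ℂ), s i = k →
    (⇑(pderiv i : Derivation ℂ W W))^[k + 1] (monomial s a) = 0 := by
  intro k
  induction k with
  | zero =>
    intro s a hs
    rw [Function.iterate_one, pderiv_monomial, hs]
    simp
  | succ k ih =>
    intro s a hs
    rw [Function.iterate_succ_apply, pderiv_monomial]
    apply ih
    rw [Finsupp.tsub_apply, Finsupp.single_eq_same, hs]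
    omega

theorem nce_it_zero (D : Derivation ℂ W W) (n : ℕ) : (⇑D)^[n] (0 : W) = 0 := by
  induction n with
  | zero => rfl
  | succ n ih => rw [Function.iterate_succ_apply, map_zero, ih]

theorem nce_it_add (D : Derivation ℂ W W) (n : ℕ) (a b : W) :
    (⇑D)^[n] (a + b) = (⇑D)^[n] a + (⇑D)^[n] b := by
  induction n generalizing a b with
  | zero => rfl
  | succ n ih => simp only [Function.iterate_succ_apply, map_add, ih]

theorem nce_it_le (D : Derivation ℂ W W) {a : W} {n m : ℕ} (h : (⇑D)^[n] a = 0)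
    (hnm : n ≤ m) : (⇑D)^[m] a = 0 := by
  obtain ⟨k, rfl⟩ := Nat.exists_eq_add_of_le hnm
  rw [Nat.add_comm, Function.iterate_add_apply, h, nce_it_zero]

theorem nce_pd_LN (i : Fin 4) (F : W) :
    ∃ n : ℕ, (⇑(pderiv i : Derivation ℂ W W))^[n] F = 0 := by
  induction F using MvPolynomial.induction_on' with
  | monomial s a => exact ⟨s i + 1, nce_pd_mono i _ s a rfl⟩
  | add p q hp hq =>
    obtain ⟨n, hn⟩ := hp
    obtain ⟨m, hm⟩ := hq
    refine ⟨max n m, ?_⟩
    rw [nce_it_add, nce_it_le _ hn (le_max_left _ _), nce_it_le _ hm (le_max_right _ _), add_zero]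

theorem nce_key (F : W) (h : ∀ i : Fin 4, i ≠ 0 → (X 0 : W) ∣ pderiv i F) :
    ∃ c : ℂ, (X 0 : W) ∣ F - C c := by
  refine ⟨coeff 0 F, ?_⟩
  have hco : ∀ m : Fin 4 →₀ ℕ, m 0 = 0 → coeff m (F - C (coeff 0 F)) = 0 := by
    intro m hm
    by_cases h0 : m = 0
    · subst h0
      simp
    · have : ∃ i : Fin 4, m i ≠ 0 := by
        by_contra hcon
        push Not at hcon
        exact h0 (Finsupp.ext hcon)
      obtain ⟨i, hi⟩ := this
      have hi0 : i ≠ 0 := by
        rintro rfl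
        exact hi hm
      obtain ⟨G, hG⟩ := h i hi0
      have h1 := coeff_pderiv (i := i) F (m - Finsupp.single i 1)
      rw [tsub_add_cancel_of_le (Finsupp.single_le_iff.2 (Nat.one_le_iff_ne_zero.2 hi)), hG] at h1
      have h2 : coeff (m - Finsupp.single i 1) (X 0 * G) = 0 := by
        rw [coeff_X_mul', if_neg]
        rw [Finsupp.notMem_support_iff, Finsupp.tsub_apply, hm]
        simp
      rw [h2] at h1
      have h3 : (((m - Finsupp.single i 1 : Fin 4 →₀ ℕ) i : ℕ) : ℂ) + 1 ≠ 0 := by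
        exact Nat.cast_add_one_ne_zero _
      have h4 : coeff m F = 0 := by
        rcases mul_eq_zero.1 h1.symm with h5 | h5
        · exact h5
        · exact absurd h5 h3
      rw [coeff_sub, h4, coeff_C, if_neg (Ne.symm h0), sub_zero]
  generalize F - C (coeff 0 F) = H at hco
  rw [← support_sum_monomial_coeff H]
  apply Finset.dvd_sum
  intro m hm
  rw [X_dvd_monomial]
  right
  intro hm0
  exact (mem_support_iff.1 hm) (hco m hm0)

/-- conjugate of a partial derivative -/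
noncomputable def nceD (τ : W ≃ₐ[ℂ] W) (i : Fin 4) : Derivation ℂ W W :=
  Derivation.mk' ((τ.symm.toLinearMap).comp
    (((pderiv i : Derivation ℂ W W) : W →ₗ[ℂ] W).comp τ.toLinearMap)) (by
      intro a b
      simp only [LinearMap.comp_apply, AlgEquiv.toLinearMap_apply, map_mul,
        Derivation.coeFn_coe, Derivation.leibniz, map_add, smul_eq_mul,
        AlgEquiv.symm_apply_apply])

theorem nceD_apply (τ : W ≃ₐ[ℂ] W) (i : Fin 4) (w : W) :
    nceD τ i w = τ.symm (pderiv i (τ w)) := rfl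

theorem nceD_iter (τ : W ≃ₐ[ℂ] W) (i : Fin 4) (n : ℕ) (w : W) :
    (⇑(nceD τ i))^[n] w = τ.symm ((⇑(pderiv i : Derivation ℂ W W))^[n] (τ w)) := by
  induction n with
  | zero => simp
  | succ n ih =>
    rw [Function.iterate_succ_apply', ih, nceD_apply, AlgEquiv.apply_symm_apply,
      Function.iterate_succ_apply']

/-- If `f` is a coordinate then there is a locally nilpotent derivation `E` of `W` with `E f = 0`, `E p ∉ fW`.
PROOF: `E_i = τ⁻¹ ∘ ∂_i ∘ τ`, i = 1,2,3.  If all `E_i p ∈ fW` then `∂_i(τ p) ∈ (X 0)` for i=1,2,3, so (char 0)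
`τ p ∈ C c + (X 0)`, so `p - C c ∈ fW`, contradiction to `p_nonconst`. -/
theorem nce (τ : W ≃ₐ[ℂ] W) (hτ : τ ff = X 0) :
    ∃ E : Derivation ℂ W W, (∀ w, ∃ n : ℕ, (⇑E)^[n] w = 0) ∧ E ff = 0 ∧
      ¬ ∃ w, E (pf (X 0) (X 1) (X 2) (X 3)) = ff * w := by
  by_contra hcon
  push Not at hcon
  have hE : ∀ i : Fin 4, i ≠ 0 → ∃ w, nceD τ i (pf (X 0) (X 1) (X 2) (X 3)) = ff * w := by
    intro i hi
    apply hcon (nceD τ i)
    · intro w
      obtain ⟨n, hn⟩ := nce_pd_LN i (τ w)
      exact ⟨n, by rw [nceD_iter, hn, map_zero]⟩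
    · rw [nceD_apply, hτ, pderiv_X_of_ne (Ne.symm hi), map_zero]
  obtain ⟨c, G, hG⟩ := nce_key (τ (pf (X 0) (X 1) (X 2) (X 3))) (by
    intro i hi
    obtain ⟨w, hw⟩ := hE i hi
    refine ⟨τ w, ?_⟩
    have h := congrArg τ hw
    rw [nceD_apply, AlgEquiv.apply_symm_apply, map_mul, hτ] at h
    exact h)
  apply p_nonconst c
  refine ⟨τ.symm G, ?_⟩
  apply τ.injective
  rw [map_mul, hτ, AlgEquiv.apply_symm_apply, ← hG, map_sub]
  congr 1
  exact τ.commutes c

end Crest.Agent.DW
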