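import Crest.Agent.DW.NCa
import Crest.Agent.DW.NCb
import Crest.Agent.DW.NCc
import Crest.Agent.DW.NCd
import Crest.Agent.DW.NCe
import Crest.Agent.DW.Rigid
set_option autoImplicit false
namespace Crest.Agent.DW
open MvPolynomial

theorem ff_ne_zero : ff ≠ 0 := by
  intro h
  have := congrArg (MvPolynomial.eval (fun i : Fin 4 => if i = 2 then (1 : ℂ) else 0)) h
  simp [ff, xf, qf] at this

theorem vv_X4 : vv (X 4) = ff := by simp [vv]

/-- the derivation of P5 lifting `f^k E` -/
noncomputable def lft (G : Fin 5 → P5) : Derivation ℂ P5 P5 := mkDerivation ℂ G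

theorem lft_spec (E : Derivation ℂ W W) (k : ℕ) (G : Fin 5 → P5)
    (hG : ∀ i, ff ^ k * E (vv (X i)) = vv (G i)) (F : P5) :
    vv (lft G F) = ff ^ k * E (vv F) := by
  induction F using MvPolynomial.induction_on with
  | C c =>
    have h1 : vv (C c) = algebraMap ℂ W c := vv.commutes c
    rw [h1, Derivation.map_algebraMap, MvPolynomial.derivation_C, map_zero, mul_zero]
  | add f g hf hg => rw [map_add, map_add, hf, hg, map_add, map_add, mul_add]
  | mul_X f i hf =>
    rw [Derivation.leibniz, map_add, smul_eq_mul, smul_eq_mul, map_mul, map_mul, hf, map_mul,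
      Derivation.leibniz, smul_eq_mul, smul_eq_mul, lft, mkDerivation_X, ← hG i]
    ring

/-- the derivation of P4 obtained by `x = 0`. -/
noncomputable def lft4 (G : Fin 5 → P5) : Derivation ℂ P4 P4 :=
  mkDerivation ℂ (fun i : Fin 4 => pi0 (G i.castSucc))

theorem pi0_lft (G : Fin 5 → P5) (hG : G 4 = 0) (F : P5) :
    pi0 (lft G F) = lft4 G (pi0 F) := by
  induction F using MvPolynomial.induction_on with
  | C c =>
    have h1 : pi0 (C c) = algebraMap ℂ P4 c := pi0.commutes c
    rw [h1, Derivation.map_algebraMap, MvPolynomial.derivation_C, map_zero]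
  | add f g hf hg => rw [map_add, map_add, hf, hg, map_add, map_add]
  | mul_X f i hf =>
    rw [Derivation.leibniz, map_add, smul_eq_mul, smul_eq_mul, map_mul, map_mul, hf, map_mul,
      Derivation.leibniz, smul_eq_mul, smul_eq_mul]
    congr 2
    rw [lft, mkDerivation_X]
    fin_cases i
    · simp [pi0, lft4]
    · simp [pi0, lft4]
    · simp [pi0, lft4]
    · simp [pi0, lft4]
    · simp [pi0, hG]

noncomputable def io : P4 →ₐ[ℂ] P5 := rename Fin.castSucc

theorem pi0_io (F : P4) : pi0 (io F) = F := by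
  have h : pi0.comp io = AlgHom.id ℂ P4 := by
    apply MvPolynomial.algHom_ext
    intro i
    fin_cases i <;> simp [pi0, io]
  exact DFunLike.congr_fun h F

theorem iter_lft (E : Derivation ℂ W W) (hE : E ff = 0) (k : ℕ) (G : Fin 5 → P5)
    (hG : ∀ i, ff ^ k * E (vv (X i)) = vv (G i)) (F : P5) (n : ℕ) :
    vv ((⇑(lft G))^[n] F) = ff ^ (k * n) * (⇑E)^[n] (vv F) := by
  induction n with
  | zero => simp
  | succ n ih =>
    rw [Function.iterate_succ_apply', lft_spec E k G hG, ih, Function.iterate_succ_apply',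
      Derivation.leibniz, Derivation.leibniz_pow, hE]
    simp only [smul_eq_mul, mul_zero, smul_zero, add_zero]
    rw [← mul_assoc, ← pow_add, show k + k * n = k * (n + 1) by ring]

theorem iter_pi0 (G : Fin 5 → P5) (hG : G 4 = 0) (F : P5) (n : ℕ) :
    pi0 ((⇑(lft G))^[n] F) = (⇑(lft4 G))^[n] (pi0 F) := by
  induction n with
  | zero => rfl
  | succ n ih =>
    rw [Function.iterate_succ_apply', pi0_lft G hG, ih, Function.iterate_succ_apply']

theorem no_coord : ¬ ∃ τ : W ≃ₐ[ℂ] W, τ ff = X 0 := by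
  classical
  rintro ⟨τ, hτ⟩
  obtain ⟨E, hE1, hE2, hE3⟩ := nce τ hτ
  have hex : ∃ k : ℕ, ∀ i : Fin 5, ∃ H : P5, ff ^ k * E (vv (X i)) = vv H := by
    choose N H hH using fun i : Fin 5 => ncd (E (vv (X i)))
    refine ⟨∑ i, N i, fun i => ⟨X 4 ^ (∑ j, N j - N i) * H i, ?_⟩⟩
    have hk : N i ≤ ∑ j, N j := Finset.single_le_sum (f := N) (fun _ _ => Nat.zero_le _)
      (Finset.mem_univ i)
    rw [map_mul, map_pow, vv_X4, ← hH i, ← mul_assoc, ← pow_add, Nat.sub_add_cancel hk]
  set k := Nat.find hex with hkdef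
  have hk := Nat.find_spec hex
  rw [← hkdef] at hk
  choose G0 hG0 using hk
  set G : Fin 5 → P5 := fun i => if i = 4 then 0 else G0 i with hGdef
  have hG : ∀ i, ff ^ k * E (vv (X i)) = vv (G i) := by
    intro i
    by_cases hi : i = 4
    · subst hi
      simp [hGdef, vv_X4, hE2]
    · simp only [hGdef, if_neg hi]
      exact hG0 i
  have hG4 : G 4 = 0 := by simp [hGdef]
  have h1 : ∀ F : P4, th F = 0 → th (lft4 G F) = 0 := by
    intro F hF
    obtain ⟨H, hH⟩ := ncb (io F) (by rw [pi0_io]; exact hF)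
    have e1 : vv (lft G (io F) - X 4 * lft G H) = 0 := by
      rw [map_sub, map_mul, vv_X4, lft_spec E k G hG, lft_spec E k G hG, hH,
        Derivation.leibniz, hE2]
      simp only [smul_eq_mul, mul_zero, smul_zero, add_zero]
      ring
    have e2 := nca _ e1
    rw [map_sub, map_mul, pi0_lft G hG4, pi0_io] at e2
    have e3 : pi0 (X 4) = 0 := by simp [pi0]
    rw [e3, zero_mul, sub_zero] at e2
    exact e2
  have h2 : ∀ F : P4, ∃ n : ℕ, th ((⇑(lft4 G))^[n] F) = 0 := by
    intro F
    obtain ⟨n, hn⟩ := hE1 (vv (io F))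
    refine ⟨n, ?_⟩
    have e1 : vv ((⇑(lft G))^[n] (io F)) = 0 := by
      rw [iter_lft E hE2 k G hG, hn, mul_zero]
    have e2 := nca _ e1
    rw [iter_pi0 G hG4, pi0_io] at e2
    exact e2
  have h3 : ∀ F : P4, ev (th F) = 0 → ev (th (lft4 G F)) = 0 := by
    intro F hF
    have hF' : ev (th (pi0 (io F))) = 0 := by rw [pi0_io]; exact hF
    obtain ⟨w, hw⟩ := (ncc (io F)).2 hF'
    have e1 : ∃ w' : W, vv (lft G (io F)) = ff * w' := by
      refine ⟨ff ^ k * E w, ?_⟩
      rw [lft_spec E k G hG, hw, Derivation.leibniz, hE2]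
      simp only [smul_eq_mul, mul_zero, smul_zero, add_zero]
      ring
    have e2 := (ncc _).1 e1
    rw [pi0_lft G hG4, pi0_io] at e2
    exact e2
  have hr := rigid (lft4 G) h1 h2 h3
  have hall : ∀ i : Fin 5, ∃ H : P5, ff ^ k * E (vv (X i)) = ff * vv H := by
    intro i
    by_cases hi : i = 4
    · subst hi
      exact ⟨0, by rw [vv_X4, hE2, mul_zero, map_zero, mul_zero]⟩
    · have e1 : th (pi0 (G i)) = 0 := by
        have e2 : pi0 (G i) = lft4 G (pi0 (X i)) := by
          rw [← pi0_lft G hG4, lft, mkDerivation_X]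
        rw [e2]
        exact hr _
      obtain ⟨H, hH⟩ := ncb (G i) e1
      exact ⟨H, by rw [hG i, hH]⟩
  rcases Nat.eq_zero_or_pos k with h0 | hpos
  · obtain ⟨H, hH⟩ := hall 0
    apply hE3
    refine ⟨vv H, ?_⟩
    rw [h0, pow_zero, one_mul] at hH
    have e : vv (X 0) = pf (X 0) (X 1) (X 2) (X 3) := by simp [vv]
    rw [e] at hH
    exact hH
  · have hlt : k - 1 < Nat.find hex := by omega
    apply Nat.find_min hex hlt
    intro i
    obtain ⟨H, hH⟩ := hall i
    refine ⟨H, ?_⟩
    apply mul_left_cancel₀ ff_ne_zero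
    rw [← hH, ← mul_assoc, ← pow_succ', Nat.sub_add_cancel hpos]

end Crest.Agent.DW
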