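import Crest.Agent.DW.NCa
import Crest.Agent.DW.NCb
import Crest.Agent.DW.NCc
import Crest.Agent.DW.NCd
import Crest.Agent.DW.NCe
import Crest.Agent.DW.Rigid
set_option autoImplicit false
namespace Crest.Agent.DW
open MvPolynomial

theorem ncf36_bound (E : Derivation ℂ W W) :
    ∃ N : ℕ, ∀ F : P5, ∃ H : P5, ff ^ N * E (vv F) = vv H := by
  classical
  have h0 : ∀ i : Fin 5, ∃ (N : ℕ) (H : P5), ff ^ N * E (vv (X i)) = vv H := fun i => ncd _
  choose n G hG using h0
  refine ⟨Finset.univ.sup n, fun F => ?_⟩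
  have hx : vv (X 4) = ff := by simp [vv]
  induction F using MvPolynomial.induction_on with
  | C a =>
    refine ⟨0, ?_⟩
    have : vv (C a) = algebraMap ℂ W a := vv.commutes a
    rw [this]; simp
  | add p q hp hq =>
    obtain ⟨H1, h1⟩ := hp
    obtain ⟨H2, h2⟩ := hq
    refine ⟨H1 + H2, ?_⟩
    rw [map_add, map_add, mul_add, h1, h2, map_add]
  | mul_X p i hp =>
    obtain ⟨H1, h1⟩ := hp
    have hle : n i ≤ Finset.univ.sup n := Finset.le_sup (Finset.mem_univ i)
    refine ⟨p * (X 4 ^ (Finset.univ.sup n - n i) * G i) + X i * H1, ?_⟩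
    rw [map_mul, Derivation.leibniz, smul_eq_mul, smul_eq_mul, map_add, map_mul, map_mul, map_mul,
      map_pow, hx, ← h1, ← hG i]
    have h2 : ff ^ (Finset.univ.sup n) = ff ^ (Finset.univ.sup n - n i) * ff ^ (n i) := by
      rw [← pow_add, Nat.sub_add_cancel hle]
    rw [mul_add, h2]
    ring

theorem ncf36 : ¬ ∃ τ : W ≃ₐ[ℂ] W, τ ff = X 0 := by
  classical
  rintro ⟨τ, hτ⟩
  have hff : ff ≠ 0 := by
    intro h
    rw [h, map_zero] at hτ
    exact (X_ne_zero (R := ℂ) (0 : Fin 4)) hτ.symm
  obtain ⟨E, hE, hEf, hEp⟩ := nce τ hτ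
  have hex := ncf36_bound E
  set k := Nat.find hex with hk
  have hkV : ∀ F : P5, ∃ H : P5, ff ^ k * E (vv F) = vv H := Nat.find_spec hex
  have hx : vv (X 4) = ff := by simp [vv]
  choose G hG using hkV
  let G' : Fin 5 → P5 := fun i => if i = 4 then 0 else G (X i)
  have hG' : ∀ i, vv (G' i) = ff ^ k * E (vv (X i)) := by
    intro i
    by_cases hi : i = 4
    · subst hi
      simp [G', hx, hEf]
    · simp only [G', if_neg hi]
      exact (hG _).symm
  let D5 : Derivation ℂ P5 P5 := mkDerivation ℂ G'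
  let D4 : Derivation ℂ P4 P4 := mkDerivation ℂ (fun i : Fin 4 => pi0 (G' i.castSucc))
  have hD5X : ∀ i, D5 (X i) = G' i := fun i => mkDerivation_X _ _ _
  have hD4X : ∀ i, D4 (X i) = pi0 (G' i.castSucc) := fun i => mkDerivation_X _ _ _
  -- (a)
  have ha : ∀ F : P5, vv (D5 F) = ff ^ k * E (vv F) := by
    intro F
    induction F using MvPolynomial.induction_on with
    | C a =>
      have h1 : vv (C a) = algebraMap ℂ W a := vv.commutes a
      have h2 : D5 (C a) = 0 := D5.map_algebraMap a
      rw [h1, h2]; simp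
    | add p q hp hq => rw [map_add, map_add, map_add, map_add, hp, hq, mul_add]
    | mul_X p i hp =>
      rw [Derivation.leibniz, hD5X, smul_eq_mul, smul_eq_mul, map_add, map_mul, map_mul, hp, hG',
        map_mul, Derivation.leibniz, smul_eq_mul, smul_eq_mul]
      ring
  have hpX : ∀ i : Fin 4, pi0 (X i.castSucc) = X i := by
    intro i
    fin_cases i <;> simp [pi0]
  have hp4 : pi0 (X 4) = 0 := by simp [pi0]
  -- (b)
  have hb : ∀ F : P5, pi0 (D5 F) = D4 (pi0 F) := by
    intro F
    induction F using MvPolynomial.induction_on with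
    | C a =>
      have h1 : pi0 (C a) = algebraMap ℂ P4 a := pi0.commutes a
      have h2 : D5 (C a) = 0 := D5.map_algebraMap a
      rw [h1, h2]; simp
    | add p q hp hq => rw [map_add, map_add, map_add, map_add, hp, hq]
    | mul_X p i hp =>
      have hi : pi0 (G' i) = D4 (pi0 (X i)) := by
        rcases Fin.eq_castSucc_or_eq_last i with ⟨j, rfl⟩ | hl
        · rw [hpX, hD4X]
        · have : i = 4 := hl
          subst this
          rw [hp4]
          simp [G']
      rw [Derivation.leibniz, hD5X, smul_eq_mul, smul_eq_mul, map_add, map_mul, map_mul, hp,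
        map_mul, Derivation.leibniz, smul_eq_mul, smul_eq_mul, hi]
  -- lift
  let lft : P4 → P5 := fun F => rename Fin.castSucc F
  have hl : ∀ F, pi0 (lft F) = F := by
    intro F
    induction F using MvPolynomial.induction_on with
    | C a =>
      simp only [lft, rename_C]
      exact pi0.commutes a
    | add p q hp hq =>
      simp only [lft, map_add] at hp hq ⊢
      rw [hp, hq]
    | mul_X p i hp =>
      simp only [lft, map_mul, rename_X] at hp ⊢
      rw [hp, hpX]
  have hEmul : ∀ w : W, E (ff * w) = ff * E w := by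
    intro w
    rw [Derivation.leibniz, hEf]; simp
  have hEpow : ∀ (n : ℕ) (w : W), E (ff ^ n * w) = ff ^ n * E w := by
    intro n w
    rw [Derivation.leibniz, Derivation.leibniz_pow, hEf]; simp
  have haiter : ∀ (n : ℕ) (F : P5), vv ((⇑D5)^[n] F) = ff ^ (k * n) * (⇑E)^[n] (vv F) := by
    intro n F
    induction n with
    | zero => simp
    | succ n ih =>
      rw [Function.iterate_succ_apply', Function.iterate_succ_apply', ha, ih, hEpow]
      ring
  have hbiter : ∀ (n : ℕ) (F : P5), pi0 ((⇑D5)^[n] F) = (⇑D4)^[n] (pi0 F) := by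
    intro n F
    induction n with
    | zero => simp
    | succ n ih => rw [Function.iterate_succ_apply', Function.iterate_succ_apply', hb, ih]
  have hrig : ∀ F, th (D4 F) = 0 := by
    apply rigid D4
    · intro F hF
      rw [← hl F] at hF ⊢
      obtain ⟨H, hH⟩ := ncb _ hF
      have h1 : vv (D5 (lft F) - X 4 * D5 H) = 0 := by
        rw [map_sub, ha, hH, hEmul, map_mul, hx, ha]
        ring
      have h2 := nca _ h1
      rw [map_sub, map_mul, hp4, zero_mul, sub_zero, hb] at h2
      exact h2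
    · intro F
      obtain ⟨n, hn⟩ := hE (vv (lft F))
      refine ⟨n, ?_⟩
      rw [← hl F, ← hbiter]
      apply nca
      rw [haiter, hn, mul_zero]
    · intro F hF
      rw [← hl F] at hF ⊢
      obtain ⟨w, hw⟩ := (ncc _).2 hF
      rw [← hb]
      apply (ncc _).1
      refine ⟨ff ^ k * E w, ?_⟩
      rw [ha, hw, hEmul]
      ring
  have hdiv : ∀ F : P5, ∃ H : P5, ff ^ k * E (vv F) = ff * vv H := by
    intro F
    have h1 : th (pi0 (D5 F)) = 0 := by rw [hb]; exact hrig _
    obtain ⟨H, hH⟩ := ncb _ h1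
    exact ⟨H, by rw [← ha, hH]⟩
  rcases Nat.eq_zero_or_pos k with h0 | hpos
  · obtain ⟨H, hH⟩ := hdiv (X 0)
    apply hEp
    refine ⟨vv H, ?_⟩
    rw [← hH, h0, pow_zero, one_mul]
    simp [vv]
  · obtain ⟨k', hk'⟩ : ∃ k', k = k' + 1 := ⟨k - 1, by omega⟩
    refine Nat.find_min hex (m := k') (by omega) ?_
    intro F
    obtain ⟨H, hH⟩ := hdiv F
    refine ⟨H, ?_⟩
    apply mul_left_cancel₀ hff
    rw [← hH, hk']
    ring

end Crest.Agent.DW
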