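import Crest.Agent.DW.Gr
import Mathlib

/-! The grading of a polynomial ring, top part of a derivation of `S[X]`. -/

set_option autoImplicit false

namespace Crest.Agent.DW

open Polynomial

variable (S : Type*) [CommRing S] [Algebra ℂ S]

/-- the component of degree `i` -/
noncomputable def pcomp (i : ℤ) : S[X] →ₗ[ℂ] S[X] :=
  if 0 ≤ i then
    ((Polynomial.monomial i.toNat).restrictScalars ℂ).comp
      ((Polynomial.lcoeff S i.toNat).restrictScalars ℂ)
  else 0

theorem pcomp_nat (n : ℕ) (F : S[X]) : pcomp S n F = monomial n (F.coeff n) := by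
  unfold pcomp
  rw [if_pos (Int.natCast_nonneg n)]
  simp

theorem pcomp_neg {i : ℤ} (hi : i < 0) (F : S[X]) : pcomp S i F = 0 := by
  unfold pcomp
  rw [if_neg (by omega)]
  rfl

/-- the grading of `S[X]` by degree -/
noncomputable def polyGr : Gr S[X] where
  comp := pcomp S
  fin F := by
    refine (F.support.map Nat.castEmbedding : Finset ℤ).finite_toSet.subset ?_
    intro i hi
    simp only [Set.mem_setOf_eq] at hi
    rcases lt_or_ge i 0 with h | h
    · exact absurd (pcomp_neg S h F) hi
    · obtain ⟨n, rfl⟩ := Int.eq_ofNat_of_zero_le h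
      rw [pcomp_nat] at hi
      simp only [Finset.coe_map, Set.mem_image, Finset.mem_coe, mem_support_iff]
      exact ⟨n, fun h0 => hi (by rw [h0, map_zero]), rfl⟩
  sum F := by
    rw [finsum_eq_sum_of_support_subset _ (s := (F.support.map Nat.castEmbedding : Finset ℤ))]
    · rw [Finset.sum_map]
      conv_rhs => rw [F.as_sum_support]
      exact Finset.sum_congr rfl fun n _ => pcomp_nat S n F
    · intro i hi
      simp only [Function.mem_support] at hi
      rcases lt_or_ge i 0 with h | h
      · exact absurd (pcomp_neg S h F) hi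
      · obtain ⟨n, rfl⟩ := Int.eq_ofNat_of_zero_le h
        rw [pcomp_nat] at hi
        simp only [Finset.coe_map, Set.mem_image, Finset.mem_coe, mem_support_iff]
        exact ⟨n, fun h0 => hi (by rw [h0, map_zero]), rfl⟩
  idem i j F := by
    rcases lt_or_ge j 0 with hj | hj
    · rw [pcomp_neg S hj, map_zero, ite_self]
    obtain ⟨m, rfl⟩ := Int.eq_ofNat_of_zero_le hj
    rcases lt_or_ge i 0 with hi | hi
    · rw [pcomp_neg S hi, if_neg (by omega)]
    obtain ⟨n, rfl⟩ := Int.eq_ofNat_of_zero_le hi
    rw [pcomp_nat, pcomp_nat, coeff_monomial]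
    by_cases h : m = n
    · subst h; simp
    · rw [if_neg h, map_zero, if_neg (by simpa using fun h' => h (by omega))]
  mul i j a b := by
    rcases lt_or_ge j 0 with hj | hj
    · rw [pcomp_neg S hj, mul_zero, map_zero]
    obtain ⟨m, rfl⟩ := Int.eq_ofNat_of_zero_le hj
    rcases lt_or_ge i 0 with hi | hi
    · rw [pcomp_neg S hi, zero_mul, map_zero]
    obtain ⟨n, rfl⟩ := Int.eq_ofNat_of_zero_le hi
    have : ((n : ℤ) + (m : ℤ)) = ((n + m : ℕ) : ℤ) := by push_cast; ring
    rw [this, pcomp_nat, pcomp_nat, pcomp_nat, monomial_mul_monomial, coeff_monomial, if_pos rfl]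

end Crest.Agent.DW
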