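import Crest.Agent.DW.Defs
import Crest.Agent.DW.LND

/-! Row 268 / S0408: the ring `R = ℂ[p,A,B]/(AB-p(p²-1))`, realised as `range th3 ⊆ U = ℂ[δ,σ]`. -/

set_option autoImplicit false
namespace Crest.Agent.DW
open MvPolynomial

abbrev P3 := MvPolynomial (Fin 3) ℂ

/-- `p = X 0 ↦ δσ, A = X 1 ↦ δ(δσ-1), B = X 2 ↦ σ(δσ+1)` -/
noncomputable def th3 : P3 →ₐ[ℂ] U :=
  aeval ![X 0 * X 1, X 0 * (X 0 * X 1 - 1), X 1 * (X 0 * X 1 + 1)]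

/-- `R` -/
noncomputable abbrev Rr : Subalgebra ℂ U := th3.range

noncomputable def rp : Rr := ⟨th3 (X 0), X 0, rfl⟩
noncomputable def rA : Rr := ⟨th3 (X 1), X 1, rfl⟩
noncomputable def rB : Rr := ⟨th3 (X 2), X 2, rfl⟩

end Crest.Agent.DW
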