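import Mathlib

set_option autoImplicit false

namespace Crest.Agent.DW

open Polynomial

theorem red36_bound {W : Type*} [CommRing W] [Algebra ℂ W]
    (V : Subalgebra ℂ W) (hfg : V.FG) (x : W) (hxV : x ∈ V)
    (E : Derivation ℂ W W)
    (hloc : ∀ w : W, ∃ n : ℕ, x ^ n * w ∈ V) :
    ∃ N : ℕ, ∀ v ∈ V, x ^ N * E v ∈ V := by
  obtain ⟨s, hs⟩ := hfg
  choose n hn using hloc
  refine ⟨s.sup (fun g => n (E g)), ?_⟩
  set N := s.sup (fun g => n (E g)) with hN
  intro v hv
  rw [← hs] at hv
  have hsV : ∀ g ∈ s, g ∈ V := fun g hg => hs ▸ Algebra.subset_adjoin hg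
  have key : v ∈ V ∧ x ^ N * E v ∈ V := by
    induction hv using Algebra.adjoin_induction with
    | mem g hg =>
      refine ⟨hsV g hg, ?_⟩
      have h1 : n (E g) ≤ N := Finset.le_sup (f := fun g => n (E g)) hg
      have h2 : x ^ N * E g = x ^ (N - n (E g)) * (x ^ (n (E g)) * E g) := by
        rw [← mul_assoc, ← pow_add, Nat.sub_add_cancel h1]
      rw [h2]
      exact V.mul_mem (V.pow_mem hxV _) (hn _)
    | algebraMap r =>
      refine ⟨V.algebraMap_mem r, ?_⟩
      simp
    | add a b _ _ ha hb =>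
      refine ⟨V.add_mem ha.1 hb.1, ?_⟩
      rw [map_add, mul_add]
      exact V.add_mem ha.2 hb.2
    | mul a b _ _ ha hb =>
      refine ⟨V.mul_mem ha.1 hb.1, ?_⟩
      rw [Derivation.leibniz, smul_eq_mul, smul_eq_mul]
      have : x ^ N * (a * E b + b * E a) = a * (x ^ N * E b) + b * (x ^ N * E a) := by ring
      rw [this]
      exact V.add_mem (V.mul_mem ha.1 hb.2) (V.mul_mem hb.1 ha.2)
  exact key.2

theorem reduction36 {W : Type*} [CommRing W] [IsDomain W] [Algebra ℂ W]
    (V : Subalgebra ℂ W) (hfg : V.FG) (x : W) (hxV : x ∈ V) (hx0 : x ≠ 0)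
    (E : Derivation ℂ W W) (hE : ∀ w, ∃ n : ℕ, (⇑E)^[n] w = 0) (hEx : E x = 0)
    (hloc : ∀ w : W, ∃ n : ℕ, x ^ n * w ∈ V)
    {S : Type*} [CommRing S] [Algebra ℂ S] (π : V →ₐ[ℂ] S) (hπ : Function.Surjective π)
    (hker : ∀ v : V, π v = 0 ↔ ∃ v' : V, (v : W) = x * v')
    (hv0 : ∃ v ∈ V, ∀ w, E v ≠ x * w) :
    ∃ Δ : Derivation ℂ S S, Δ ≠ 0 ∧ (∀ s, ∃ n : ℕ, (⇑Δ)^[n] s = 0) ∧
      ∀ v : V, (∃ w, (v : W) = x * w) → ∃ v' : V, (∃ w, (v' : W) = x * w) ∧ Δ (π v) = π v' := by
  classical
  have hex := red36_bound V hfg x hxV E hloc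
  set k := Nat.find hex with hk
  have hkV : ∀ v ∈ V, x ^ k * E v ∈ V := Nat.find_spec hex
  -- nonzero witness
  have hwit : ∃ v ∈ V, ∀ v' ∈ V, x ^ k * E v ≠ x * v' := by
    rcases Nat.eq_zero_or_pos k with h0 | hpos
    · obtain ⟨v, hv, hv'⟩ := hv0
      refine ⟨v, hv, fun v' _ h => hv' v' ?_⟩
      rw [h0] at h
      simpa using h
    · obtain ⟨k', hk'⟩ : ∃ k', k = k' + 1 := ⟨k - 1, by omega⟩
      have hmin : ¬ ∀ v ∈ V, x ^ k' * E v ∈ V := Nat.find_min hex (by omega)
      push Not at hmin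
      obtain ⟨v, hv, hv'⟩ := hmin
      refine ⟨v, hv, fun v' hv'V h => hv' ?_⟩
      have : x ^ k' * E v = v' := by
        apply mul_left_cancel₀ hx0
        rw [← h, hk']
        ring
      rw [this]; exact hv'V
  let T : V → V := fun v => ⟨x ^ k * E v, hkV v v.2⟩
  have hT : ∀ v : V, ((T v : V) : W) = x ^ k * E v := fun v => rfl
  have key : ∀ v w : V, π v = π w → π (T v) = π (T w) := by
    intro v w h
    have h1 : π (v - w) = 0 := by rw [map_sub, h, sub_self]
    obtain ⟨v', hv'⟩ := (hker _).1 h1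
    have h2 : π (T v - T w) = 0 := by
      rw [hker]
      refine ⟨T v', ?_⟩
      have h3 : E ((v : W) - w) = x * E v' := by
        have : ((v : W) - w) = x * v' := by simpa using hv'
        rw [this, Derivation.leibniz, hEx]
        simp
      rw [map_sub] at h3
      have : ((T v - T w : V) : W) = x ^ k * E v - x ^ k * E w := by
        rw [AddSubgroupClass.coe_sub, hT, hT]
      rw [this, hT, ← mul_sub, h3]
      ring
    rw [map_sub, sub_eq_zero] at h2
    exact h2
  let sec : S → V := Function.surjInv hπ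
  have hsec : ∀ s, π (sec s) = s := Function.surjInv_eq hπ
  have hTadd : ∀ v w : V, T (v + w) = T v + T w := by
    intro v w
    apply Subtype.ext
    rw [hT, Subalgebra.coe_add, Subalgebra.coe_add, hT, hT, map_add, mul_add]
  have hTsmul : ∀ (c : ℂ) (v : V), T (c • v) = c • T v := by
    intro c v
    apply Subtype.ext
    rw [hT, Subalgebra.coe_smul, Subalgebra.coe_smul, hT, Derivation.map_smul, mul_smul_comm]
  have hTmul : ∀ v w : V, T (v * w) = v * T w + w * T v := by
    intro v w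
    apply Subtype.ext
    rw [hT, Subalgebra.coe_add, Subalgebra.coe_mul, Subalgebra.coe_mul, Subalgebra.coe_mul, hT, hT,
      Derivation.leibniz, smul_eq_mul, smul_eq_mul]
    ring
  let L : S →ₗ[ℂ] S :=
    { toFun := fun s => π (T (sec s))
      map_add' := by
        intro a b
        have : π (T (sec (a + b))) = π (T (sec a + sec b)) := by
          apply key
          rw [hsec, map_add, hsec, hsec]
        rw [this, hTadd, map_add]
      map_smul' := by
        intro c a
        have : π (T (sec (c • a))) = π (T (c • sec a)) := by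
          apply key
          rw [hsec, map_smul, hsec]
        rw [this, hTsmul, map_smul]
        rfl }
  have hL : ∀ v : V, L (π v) = π (T v) := fun v => key _ _ (hsec _)
  let Δ : Derivation ℂ S S := Derivation.mk' L (by
    intro a b
    obtain ⟨v, rfl⟩ := hπ a
    obtain ⟨w, rfl⟩ := hπ b
    rw [← map_mul, hL, hL, hL, hTmul, map_add, map_mul, map_mul, smul_eq_mul, smul_eq_mul])
  have hΔ : ∀ v : V, Δ (π v) = π (T v) := hL
  have hiter : ∀ (n : ℕ) (v : V), (⇑Δ)^[n] (π v) = π (T^[n] v) := by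
    intro n
    induction n with
    | zero => intro v; rfl
    | succ n ih =>
      intro v
      rw [Function.iterate_succ_apply, Function.iterate_succ_apply, hΔ, ih]
  have hExn : ∀ (n : ℕ) (w : W), E (x ^ n * w) = x ^ n * E w := by
    intro n w
    rw [Derivation.leibniz, Derivation.leibniz_pow, hEx]
    simp
  have hTiter : ∀ (n : ℕ) (v : V), ((T^[n] v : V) : W) = x ^ (k * n) * (⇑E)^[n] v := by
    intro n
    induction n with
    | zero => intro v; simp
    | succ n ih =>
      intro v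
      rw [Function.iterate_succ_apply', Function.iterate_succ_apply', hT, ih, hExn]
      ring
  refine ⟨Δ, ?_, ?_, ?_⟩
  · intro h0
    obtain ⟨v, hv, hv'⟩ := hwit
    have h1 : π (T ⟨v, hv⟩) = 0 := by
      rw [← hΔ, h0]; rfl
    obtain ⟨v', h2⟩ := (hker _).1 h1
    exact hv' v' v'.2 h2
  · intro s
    obtain ⟨v, rfl⟩ := hπ s
    obtain ⟨n, hn⟩ := hE v
    refine ⟨n, ?_⟩
    rw [hiter]
    have : T^[n] v = 0 := by
      apply Subtype.ext
      rw [hTiter, hn]
      simp
    rw [this, map_zero]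
  · rintro v ⟨w, hw⟩
    refine ⟨T v, ⟨x ^ k * E w, ?_⟩, hΔ v⟩
    rw [hT, hw, Derivation.leibniz, hEx]
    simp only [smul_eq_mul, mul_zero, add_zero]
    ring

end Crest.Agent.DW
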