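import Crest.Agent.DW.LaLead
import Crest.Agent.DW.RModel

/-! Glue for `rigid`: from a derivation of `P4` to a derivation of `RR[X]` and its leading part. -/

set_option autoImplicit false

namespace Crest.Agent.DW.G9

open Polynomial

/-- `σ+δ`-evaluation -/
noncomputable def evR : Polynomial RR →+* U :=
  Polynomial.eval₂RingHom RR.val.toRingHom (MvPolynomial.X 0 + MvPolynomial.X 1)

/-- `K1` as a proposition -/
def K1s : Prop := ∀ G : Polynomial RR,
  Polynomial.eval₂ RR.val.toRingHom (MvPolynomial.X 0 + MvPolynomial.X 1) G = 0 →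
    OnL1 G.leadingCoeff ∧ OnL2 G.leadingCoeff

/-- `R_rigid` as a proposition -/
def RRs : Prop := ∀ (δ : Derivation ℂ RR RR), LN δ → OnL1 (δ rp) → OnL2 (δ rp) → δ = 0

/-- the element `(p²-1)λ - (p+1)A - (p-1)B` of the kernel of `evR` -/
noncomputable def F1 : Polynomial RR := C (rp ^ 2 - 1) * X - C ((rp + 1) * rA + (rp - 1) * rB)

theorem evR_F1 : evR F1 = 0 := by
  simp only [F1, evR, coe_eval₂RingHom, eval₂_sub, eval₂_mul, eval₂_C, eval₂_X]
  simp [rp_eq, rA_eq, rB_eq, tr_val, thR]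
  ring

theorem D_gen {S : Type*} [CommRing S] [Algebra ℂ S] (Δ : Derivation ℂ (Polynomial S) (Polynomial S))
    (a b : S) : Δ (C a * X - C b) = C a * Δ X + X * Δ (C a) - Δ (C b) := by
  rw [Derivation.map_sub, Derivation.leibniz, smul_eq_mul, smul_eq_mul]

theorem D_gen0 {S : Type*} [CommRing S] [Algebra ℂ S] (Δ : Derivation ℂ (Polynomial S) (Polynomial S))
    (hC : ∀ r : S, Δ (C r) = 0) (a b : S) : Δ (C a * X - C b) = C a * Δ X := by
  rw [D_gen, hC, hC, mul_zero, add_zero, sub_zero]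

theorem D_F1 (Δ : Derivation ℂ (Polynomial RR) (Polynomial RR)) :
    Δ F1 = C (rp ^ 2 - 1) * Δ X + X * Δ (C (rp ^ 2 - 1))
      - Δ (C ((rp + 1) * rA + (rp - 1) * rB)) := by
  exact D_gen Δ _ _

theorem evR_C (r : RR) : evR (C r) = (r : U) := by
  unfold evR
  rw [coe_eval₂RingHom, eval₂_C]
  rfl

theorem rp_sq_ne : ((rp : RR) ^ 2 - 1 : RR) ≠ 0 := by
  intro h
  have h1 := congrArg (fun r : RR => MvPolynomial.eval ![(0 : ℂ), 0] (r : U)) h
  simp [rp_eq, tr_val, thR] at h1

/-- a bound for the degree of a derivation of `RR[X]` -/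
theorem exists_bound (Δ : Derivation ℂ (Polynomial RR) (Polynomial RR)) :
    ∃ N : ℕ, ∀ r : RR, (Δ (C r)).natDegree ≤ N := by
  refine ⟨max (Δ (C (tr (MvPolynomial.X 0)))).natDegree
    (max (Δ (C (tr (MvPolynomial.X 1)))).natDegree (Δ (C (tr (MvPolynomial.X 2)))).natDegree), ?_⟩
  intro r
  obtain ⟨F, rfl⟩ := tr_surj r
  induction F using MvPolynomial.induction_on with
  | C a =>
    have : (C (tr (MvPolynomial.C a)) : Polynomial RR) = algebraMap ℂ (Polynomial RR) a := by
      have h1 : tr (MvPolynomial.C a) = algebraMap ℂ RR a := tr.commutes a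
      rw [h1]; rfl
    rw [this, Derivation.map_algebraMap, natDegree_zero]
    exact Nat.zero_le _
  | add p q hp hq =>
    rw [map_add, C_add, map_add]
    exact (natDegree_add_le _ _).trans (max_le hp hq)
  | mul_X p i hp =>
    rw [map_mul, C_mul, Derivation.leibniz, smul_eq_mul, smul_eq_mul]
    refine (natDegree_add_le _ _).trans (max_le ?_ ?_)
    · refine (natDegree_C_mul_le _ _).trans ?_
      fin_cases i
      · exact le_max_left _ _
      · exact (le_max_left _ _).trans (le_max_right _ _)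
      · exact (le_max_right _ _).trans (le_max_right _ _)
    · exact (natDegree_C_mul_le _ _).trans hp

theorem exists_degLE (Δ : Derivation ℂ (Polynomial RR) (Polynomial RR)) :
    ∃ e : ℕ, (polyGr RR).DegLE Δ (e : ℤ) := by
  obtain ⟨N, hN⟩ := exists_bound Δ
  refine ⟨max N (Δ X).natDegree, ?_⟩
  intro i a k hk
  change pcomp RR k (Δ (pcomp RR i a)) = 0
  rcases lt_or_ge i 0 with hi | hi
  · rw [pcomp_neg RR hi, map_zero, map_zero]
  obtain ⟨n, rfl⟩ := Int.eq_ofNat_of_zero_le hi
  obtain ⟨m, rfl⟩ := Int.eq_ofNat_of_zero_le (show 0 ≤ k by omega)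
  rw [pcomp_nat, pcomp_nat]
  have hd : (Δ (monomial n (a.coeff n))).natDegree ≤ n + max N (Δ X).natDegree := by
    rw [← C_mul_X_pow_eq_monomial, Derivation.leibniz, Derivation.leibniz_pow, smul_eq_mul,
      smul_eq_mul, smul_eq_mul]
    refine (natDegree_add_le _ _).trans (max_le ?_ ?_)
    · refine (natDegree_C_mul_le _ _).trans ?_
      rcases n with _ | n
      · simp
      refine (natDegree_smul_le _ _).trans ?_
      refine natDegree_mul_le.trans ?_
      have h1 : (X ^ (n + 1 - 1) : Polynomial RR).natDegree ≤ n := by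
        simp
      have h2 : (Δ X).natDegree ≤ max N (Δ X).natDegree := le_max_right _ _
      omega
    · refine natDegree_mul_le.trans ?_
      have h1 : (X ^ n : Polynomial RR).natDegree ≤ n := natDegree_X_pow_le n
      have h2 := hN (a.coeff n)
      have h3 : N ≤ max N (Δ X).natDegree := le_max_left _ _
      omega
  have hc : (Δ (monomial n (a.coeff n))).coeff m = 0 :=
    coeff_eq_zero_of_natDegree_lt (lt_of_le_of_lt hd (by omega))
  rw [hc, map_zero]


/-- the main step: a locally nilpotent derivation of `RR[X]` preserving `ker evR` has degree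
`-1` in `X` -/
theorem step_e (hK : K1s) (hR : RRs) {Δ : Derivation ℂ (Polynomial RR) (Polynomial RR)}
    (hN : LN (A := Polynomial RR) Δ) (hI : ∀ G, evR G = 0 → evR (Δ G) = 0) {e : ℕ}
    (hD : (polyGr RR).DegLE Δ (e : ℤ)) : (polyGr RR).DegLE Δ ((e : ℤ) - 1) := by
  apply dl_ne hN hD
  have hX := coeff_X_eq_zero hN hD
  -- the leading coefficient of `Δ F1`
  have hc : (Δ F1).coeff (e + 1) = dl Δ e (rp ^ 2 - 1) := by
    rw [D_F1, coeff_sub, coeff_add,
      coeff_of_degLE hD _ (Nat.lt_succ_self e), coeff_C_mul, hX, mul_zero, coeff_X_mul, dl_apply,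
      zero_add, sub_zero]
  have hdeg : (Δ F1).natDegree ≤ e + 1 := by
    rw [natDegree_le_iff_coeff_eq_zero]
    intro k hk
    obtain ⟨k, rfl⟩ : ∃ j, k = j + 1 := ⟨k - 1, by omega⟩
    rw [D_F1, coeff_sub, coeff_add,
      coeff_of_degLE hD _ (by omega : e < k + 1), coeff_C_mul, coeff_X_of_degLE hD hk, mul_zero,
      coeff_X_mul, coeff_of_degLE hD _ (by omega : e < k), zero_add, sub_zero]
  have hk := hK (Δ F1) (hI F1 evR_F1)
  have hk0 := hK 0 (by simp)
  rw [leadingCoeff_zero] at hk0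
  have hL : OnL1 (dl Δ e (rp ^ 2 - 1)) ∧ OnL2 (dl Δ e (rp ^ 2 - 1)) := by
    rcases eq_or_lt_of_le hdeg with h | h
    · rw [← hc, ← h]; exact hk
    · rw [← hc, coeff_eq_zero_of_natDegree_lt h]; exact hk0
  have hp : dl Δ e (rp ^ 2 - 1) = 2 * rp * dl Δ e rp := by
    rw [map_sub, Derivation.map_one_eq_zero, sub_zero, Derivation.leibniz_pow]
    simp
    ring
  rw [hp] at hL
  refine hR (dl Δ e) (dl_LN hN hD) ?_ ?_
  · intro F hF a
    have hF2 : tr (2 * MvPolynomial.X 0 * F) = 2 * rp * dl Δ e rp := by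
      rw [map_mul, map_mul, hF, rp_eq, map_ofNat]
    have h := hL.1 _ hF2 a
    simpa using h
  · intro F hF b
    have hF2 : tr (2 * MvPolynomial.X 0 * F) = 2 * rp * dl Δ e rp := by
      rw [map_mul, map_mul, hF, rp_eq, map_ofNat]
    have h := hL.2 _ hF2 b
    simpa using h

theorem all_zero (hK : K1s) (hR : RRs) {Δ : Derivation ℂ (Polynomial RR) (Polynomial RR)}
    (hN : LN (A := Polynomial RR) Δ) (hI : ∀ G, evR G = 0 → evR (Δ G) = 0) (G : Polynomial RR) : Δ G = 0 := by
  obtain ⟨e, he⟩ := exists_degLE Δ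
  have hm : (polyGr RR).DegLE Δ (-1) := by
    induction e with
    | zero => simpa using step_e hK hR hN hI he
    | succ e ih =>
      apply ih
      have := step_e hK hR hN hI he
      simpa using this
  have hC : ∀ r : RR, Δ (C r) = 0 := by
    intro r
    ext1 k
    have h := hm ((0 : ℕ) : ℤ) (C r) (k : ℤ) (by push_cast; omega)
    change pcomp RR _ (Δ (pcomp RR _ _)) = _ at h
    rw [pcomp_nat, pcomp_nat, coeff_C_zero] at h
    exact (monomial_eq_zero_iff _ _).1 h
  have hX : ∀ k : ℕ, (Δ X).coeff (k + 1) = 0 := by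
    intro k
    have h := hm ((1 : ℕ) : ℤ) X ((k + 1 : ℕ) : ℤ) (by push_cast; omega)
    change pcomp RR _ (Δ (pcomp RR _ _)) = _ at h
    rw [pcomp_nat, pcomp_nat, coeff_X_one] at h
    exact (monomial_eq_zero_iff _ _).1 h
  have hXC : Δ X = C ((Δ X).coeff 0) := by
    ext1 k
    rcases k with _ | k
    · simp
    · rw [hX k, coeff_C_succ]
  have hF := hI F1 evR_F1
  have hDF : Δ F1 = C ((rp ^ 2 - 1) * (Δ X).coeff 0) := by
    have h1 : Δ F1 = C (rp ^ 2 - 1) * Δ X := D_gen0 Δ hC _ _
    rw [h1, C_mul, ← hXC]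
  rw [hDF] at hF
  have hz : (rp ^ 2 - 1 : RR) * (Δ X).coeff 0 = 0 := by
    rw [evR_C] at hF
    exact Subtype.ext hF
  have hc0 : (Δ X).coeff 0 = 0 := by
    rcases mul_eq_zero.1 hz with h | h
    · exact absurd h rp_sq_ne
    · exact h
  rw [hc0, C_0] at hXC
  induction G using Polynomial.induction_on' with
  | add p q hp hq => rw [map_add, hp, hq, add_zero]
  | monomial k r =>
    rw [← C_mul_X_pow_eq_monomial, Derivation.leibniz, Derivation.leibniz_pow, hC, hXC]
    simp

end Crest.Agent.DW.G9
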