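import Crest.Agent.DW.RigGlue

/-! Glue for `rigid`, second half. -/

set_option autoImplicit false

namespace Crest.Agent.DW.G9

open Polynomial

/-- `th` with values in `RR[X]` -/
noncomputable def thP : P4 →ₐ[ℂ] Polynomial RR :=
  MvPolynomial.aeval ![C rp, C rA, C rB, X]

noncomputable def mapU : Polynomial RR →ₐ[ℂ] Polynomial U := Polynomial.mapAlgHom RR.val

theorem mapU_inj : Function.Injective mapU :=
  Polynomial.map_injective RR.val.toRingHom Subtype.val_injective

theorem mapU_thP (F : P4) : mapU (thP F) = th F := by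
  have : mapU.comp thP = th := by
    apply MvPolynomial.algHom_ext
    intro i
    fin_cases i <;>
      simp [thP, th, mapU, rp_eq, rA_eq, rB_eq, tr_val, thR]
  rw [← this]; rfl

theorem ev_mapU (G : Polynomial RR) : ev (mapU G) = evR G := by
  unfold ev evR mapU
  simp only [AlgHom.restrictScalars_apply, coe_eval₂RingHom, coe_aeval_eq_eval]
  rw [Polynomial.eval₂_eq_eval_map]
  rfl

theorem thP_surj : Function.Surjective thP := by
  intro G
  have hr : ∀ r : RR, ∃ F : P4, thP F = C r := by
    intro r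
    obtain ⟨F, rfl⟩ := tr_surj r
    refine ⟨MvPolynomial.aeval ![MvPolynomial.X 0, MvPolynomial.X 1, MvPolynomial.X 2] F, ?_⟩
    have : thP.comp (MvPolynomial.aeval (R := ℂ)
        ![(MvPolynomial.X 0 : P4), MvPolynomial.X 1, MvPolynomial.X 2]) =
        (Polynomial.CAlgHom (R := ℂ) (A := RR)).comp tr := by
      apply MvPolynomial.algHom_ext
      intro i
      fin_cases i <;> simp [thP, rp_eq, rA_eq, rB_eq]
    exact DFunLike.congr_fun this F
  induction G using Polynomial.induction_on' with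
  | add p q hp hq =>
    obtain ⟨F, hF⟩ := hp
    obtain ⟨F', hF'⟩ := hq
    exact ⟨F + F', by rw [map_add, hF, hF']⟩
  | monomial n r =>
    obtain ⟨F, hF⟩ := hr r
    refine ⟨F * MvPolynomial.X 3 ^ n, ?_⟩
    rw [map_mul, map_pow, hF, ← C_mul_X_pow_eq_monomial]
    simp [thP]

theorem rigid_of (hK : K1s) (hR : RRs) (D : Derivation ℂ P4 P4)
    (h1 : ∀ F, th F = 0 → th (D F) = 0)
    (h2 : ∀ F, ∃ n : ℕ, th ((⇑D)^[n] F) = 0)
    (h3 : ∀ F, ev (th F) = 0 → ev (th (D F)) = 0) (F : P4) : th (D F) = 0 := by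
  have h0 : ∀ F, thP F = 0 ↔ th F = 0 := by
    intro F
    rw [← mapU_thP, map_eq_zero_iff mapU mapU_inj]
  have hd : ∀ F, thP F = 0 → thP (D F) = 0 := fun F hF => (h0 _).2 (h1 F ((h0 F).1 hF))
  have happ : ∀ F, Derivation.liftOfSurjective thP_surj hd (thP F) = thP (D F) :=
    fun F => Derivation.liftOfSurjective_apply thP_surj hd F
  set Δ := Derivation.liftOfSurjective thP_surj hd with hΔ
  have hN : LN (A := Polynomial RR) Δ := by
    intro G
    obtain ⟨F, rfl⟩ := thP_surj G
    obtain ⟨n, hn⟩ := h2 F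
    refine ⟨n, ?_⟩
    have key : ∀ n : ℕ, (⇑Δ)^[n] (thP F) = thP ((⇑D)^[n] F) := by
      intro n
      induction n with
      | zero => rfl
      | succ n ih => rw [Function.iterate_succ_apply', ih, happ, Function.iterate_succ_apply']
    rw [key]
    exact (h0 _).2 hn
  have hI : ∀ G, evR G = 0 → evR (Δ G) = 0 := by
    intro G hG
    obtain ⟨F, rfl⟩ := thP_surj G
    rw [happ, ← ev_mapU, mapU_thP]
    apply h3
    rw [← mapU_thP, ev_mapU]
    exact hG
  rw [← h0, ← happ]
  exact all_zero hK hR hN hI _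

end Crest.Agent.DW.G9
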