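import Crest.Agent.DW.Defs
import Crest.Agent.DW.RigGlue2
import Crest.Agent.DW.KLem
import Crest.Agent.DW.RRigid
set_option autoImplicit false
namespace Crest.Agent.DW.G9
open MvPolynomial

/-- RIGIDITY. `D` induces a locally nilpotent derivation of `S0 = range th = R[λ]`, preserving `ker ev`; then it is 0 on S0. -/
theorem rigid9 (D : Derivation ℂ P4 P4)
    (h1 : ∀ F, th F = 0 → th (D F) = 0)
    (h2 : ∀ F, ∃ n : ℕ, th ((⇑D)^[n] F) = 0)
    (h3 : ∀ F, ev (th F) = 0 → ev (th (D F)) = 0) (F : P4) : th (D F) = 0 :=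
  rigid_of K1 R_rigid D h1 h2 h3 F

end Crest.Agent.DW.G9
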